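import Vale.Agent.P318.R2.H402.ThreeInv
import Vale.Agent.P318.R2.H678.Inv
import Vale.Agent.P318.R2.H924.LenOf

/-! # Conjugation invariant lengths on alternating groups: final form -/

namespace Vale.Agent.P318.R2.H221

variable {n : ℕ} {f : alternatingGroup (Fin n) → ℝ}

theorem len (h0 : ∀ x, 0 ≤ f x) (h1 : f 1 = 0)
    (hm : ∀ x y, f (x * y) ≤ f x + f y) (hi : ∀ x, f x⁻¹ = f x)
    (hcj : ∀ x y, f (x * y * x⁻¹) = f y) (hn : 40 ≤ n) {t : alternatingGroup (Fin n)}
    (ht : n ≤ 4 * (t : Equiv.Perm (Fin n)).support.card) (y : alternatingGroup (Fin n)) :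
    f y ≤ 288 * f t :=
  H924.len_of (fun y => H402.three_inv (by omega) y)
    (fun a b ha hb h => H678.conj_inv a b ha hb h) (fun S j hj => H678.comm_inv S j hj)
    (fun a ha => H678.four_dvd ha) (fun v hv j hj => H678.split_inv v hv j hj)
    h0 h1 hm hi hcj hn ht y

theorem all_comm (hm : ∀ x y, f (x * y) ≤ f x + f y)
    (hcj : ∀ x y, f (x * y * x⁻¹) = f y) (hn : 5 ≤ n) {B : ℝ}
    (hB : ∀ a b, f (a * b * a⁻¹ * b⁻¹) ≤ B) (y : alternatingGroup (Fin n)) :
    f y ≤ 3 * B :=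
  H924.all_comm_of (fun y => H402.three_inv hn y)
    (fun a b ha hb h => H678.conj_inv a b ha hb h) (fun S j hj => H678.comm_inv S j hj)
    (fun a ha => H678.four_dvd ha) hm hcj hB y

end Vale.Agent.P318.R2.H221
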