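import Vale.Agent.P318.R2.H221.Disj
import Vale.Agent.P318.R2.H221.LenA
import Vale.Agent.P318.R2.H356.Gen
import Vale.Agent.P318.R2.H378.Comm
import Vale.Agent.P318.R2.H402.Growth

/-!
# Nonlinear characters over an alternating chief factor

Setting: `L` is a subgroup of `G`, `φ : L →* A_n` is surjective and `α` has modulus one on its
kernel; `‖α y₀‖ ^ 2 ≤ 1 / 2` for some `y₀ ∈ L`.
-/

open Finset

set_option linter.unusedSectionVars false

namespace Vale.Agent.P318.R2.H221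

open Vale.Agent.P318.R2.H356

section Len

variable {n : ℕ}

/-- the constant of the length lemma -/
noncomputable def CA : ℝ := max 288 ((Nat.factorial 40 : ℕ) : ℝ)

lemma CA_ge : (288 : ℝ) ≤ CA := le_max_left _ _

lemma CA_pos : 0 < CA := lt_of_lt_of_le (by norm_num) CA_ge

lemma card_alt_le (hn : n < 40) : (Nat.card (ConjClasses (alternatingGroup (Fin n))) : ℝ) ≤
    ((Nat.factorial 40 : ℕ) : ℝ) := by
  have h1 : Nat.card (ConjClasses (alternatingGroup (Fin n))) ≤
      Nat.card (alternatingGroup (Fin n)) :=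
    Nat.card_le_card_of_surjective _ (Quot.mk_surjective : Function.Surjective
      (ConjClasses.mk : alternatingGroup (Fin n) → _))
  have h2 : Nat.card (alternatingGroup (Fin n)) ≤ Nat.card (Equiv.Perm (Fin n)) :=
    Nat.card_le_card_of_injective _ Subtype.coe_injective
  have h3 : Nat.card (Equiv.Perm (Fin n)) = Nat.factorial n := by
    rw [Nat.card_eq_fintype_card, Fintype.card_perm, Fintype.card_fin]
  have h4 : Nat.factorial n ≤ Nat.factorial 40 := Nat.factorial_le hn.le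
  exact_mod_cast h1.trans (h2.trans (h3.le.trans h4))

/-- The length lemma for all degrees. -/
theorem len_all {f : alternatingGroup (Fin n) → ℝ} (h0 : ∀ x, 0 ≤ f x) (h1 : f 1 = 0)
    (hm : ∀ x y, f (x * y) ≤ f x + f y) (hi : ∀ x, f x⁻¹ = f x)
    (hcj : ∀ x y, f (x * y * x⁻¹) = f y) (hn : 5 ≤ n) {t : alternatingGroup (Fin n)}
    (ht : n ≤ 4 * (t : Equiv.Perm (Fin n)).support.card) (y : alternatingGroup (Fin n)) :
    f y ≤ CA * f t := by
  rcases lt_or_ge n 40 with h40 | h40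
  · have : IsSimpleGroup (alternatingGroup (Fin n)) := by
      apply alternatingGroup.isSimpleGroup
      simpa using hn
    have ht1 : t ≠ 1 := by
      rintro rfl
      simp at ht
      omega
    have h := H402.growth h0 h1 hm hi hcj ht1 y
    refine h.trans (mul_le_mul_of_nonneg_right ?_ (h0 t))
    have h2 := card_alt_le h40
    have h3 : ((Nat.factorial 40 : ℕ) : ℝ) ≤ CA := le_max_right _ _
    linarith
  · exact (len h0 h1 hm hi hcj h40 ht y).trans (mul_le_mul_of_nonneg_right CA_ge (h0 t))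

end Len

variable {G : Type*} [Group G] [Fintype G] {α : G → ℂ} {n : ℕ} {L : Subgroup G}
  {φ : L →* alternatingGroup (Fin n)}

/-- the distance `sd` on the quotient -/
lemma exists_f (hα : IsChr α) (hφ : Function.Surjective φ)
    (hker : ∀ x : L, φ x = 1 → ‖α x‖ = 1) :
    ∃ f : alternatingGroup (Fin n) → ℝ, (∀ x : L, f (φ x) = sd α x) ∧ (∀ x, 0 ≤ f x) ∧
      f 1 = 0 ∧ (∀ x y, f (x * y) ≤ f x + f y) ∧ (∀ x, f x⁻¹ = f x) ∧
      ∀ x y, f (x * y * x⁻¹) = f y := by
  obtain ⟨σ, hσ⟩ := hφ.hasRightInverse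
  have hf : ∀ x : L, sd α (σ (φ x) : L) = sd α x := by
    intro x
    have h1 : φ (x⁻¹ * σ (φ x)) = 1 := by
      rw [map_mul, map_inv, hσ, inv_mul_cancel]
    have h2 := hker _ h1
    have h3 := sd_mul_of_one hα h2 (x : G)
    rw [← h3, Subgroup.coe_mul, Subgroup.coe_inv, mul_inv_cancel_left]
  have hf' : ∀ x : L, (fun t => sd α (σ t : L)) (φ x) = sd α x := hf
  refine ⟨fun t => sd α (σ t : L), hf, fun x => sd_nonneg α _, ?_, ?_, ?_, ?_⟩
  · have := hf 1
    rw [map_one, Subgroup.coe_one, sd_one hα] at this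
    exact this
  · intro x y
    obtain ⟨x, rfl⟩ := hφ x
    obtain ⟨y, rfl⟩ := hφ y
    rw [← map_mul]
    rw [hf', hf', hf', Subgroup.coe_mul]
    exact sd_mul hα _ _
  · intro x
    obtain ⟨x, rfl⟩ := hφ x
    rw [← map_inv, hf', hf', Subgroup.coe_inv, sd_inv hα]
  · intro x y
    obtain ⟨x, rfl⟩ := hφ x
    obtain ⟨y, rfl⟩ := hφ y
    rw [← map_inv, ← map_mul, ← map_mul, hf', hf', Subgroup.coe_mul, Subgroup.coe_mul,
      Subgroup.coe_inv, sd_conj hα]

lemma sd_sq_le (hα : IsChr α) (g : G) : sd α g ^ 2 ≤ 2 * (1 - ‖α g‖) := by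
  rw [sd_sq hα]
  nlinarith [hα.norm_le g, norm_nonneg (α g), sq_nonneg (1 - ‖α g‖)]

lemma le_sd_sq (hα : IsChr α) (g : G) : 1 - ‖α g‖ ≤ sd α g ^ 2 := by
  rw [sd_sq hα]
  nlinarith [hα.norm_le g, norm_nonneg (α g), sq_nonneg (1 - ‖α g‖)]

/-- large support -/
lemma big_support (hα : IsChr α) (hφ : Function.Surjective φ)
    (hker : ∀ x : L, φ x = 1 → ‖α x‖ = 1) (hn : 5 ≤ n)
    (hy : ∃ y ∈ L, ‖α y‖ ^ 2 ≤ 1 / 2) {u : L}
    (hu : n ≤ 4 * (φ u : Equiv.Perm (Fin n)).support.card) :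
    1 / (4 * CA ^ 2) ≤ 1 - ‖α u‖ := by
  obtain ⟨f, hf, h0, h1, hm, hi, hcj⟩ := exists_f hα hφ hker
  obtain ⟨y, hyL, hy2⟩ := hy
  have h2 := len_all h0 h1 hm hi hcj hn hu (φ ⟨y, hyL⟩)
  rw [hf, hf] at h2
  have h3 : sd α y ^ 2 ≤ (CA * sd α u) ^ 2 := pow_le_pow_left₀ (sd_nonneg α _) h2 2
  rw [mul_pow] at h3
  have h4 : 1 / 2 ≤ sd α y ^ 2 := by
    rw [sd_sq hα]; linarith
  have h5 := sd_sq_le hα (u : G)
  have hC := CA_pos
  rw [div_le_iff₀ (by positivity)]
  have h6 : CA ^ 2 * sd α u ^ 2 ≤ CA ^ 2 * (2 * (1 - ‖α u‖)) :=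
    mul_le_mul_of_nonneg_left h5 (by positivity)
  nlinarith

lemma alpha_eq_zero (hα : IsChr α) {z x y : G} (hz : ‖α z‖ = 1) (hz1 : α z ≠ 1)
    (h : z = x * y * x⁻¹ * y⁻¹) : α y = 0 := by
  have h1 : x * y * x⁻¹ = z * y := by rw [h]; group
  have h2 : α (z * y) = α y := by rw [← h1, hα.cls]
  have h3 : α (z * y) = α z * α y := by
    have h4 : z * y = y * (y⁻¹ * z * y) := by group
    have h5 : α (y⁻¹ * z * y) = α z := by
      have := hα.cls y⁻¹ z
      rwa [inv_inv] at this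
    rw [h4, hα.mul_of_norm_one (by rw [h5, hz]), h5, mul_comm]
  rw [h3] at h2
  have h6 : (α z - 1) * α y = 0 := by rw [sub_mul, h2]; ring
  rcases mul_eq_zero.1 h6 with h7 | h7
  · exact absurd (sub_eq_zero.1 h7) hz1
  · exact h7

/-- **The pointwise bound**: linear in the support. -/
theorem lin_support (hα : IsChr α) (hφ : Function.Surjective φ)
    (hker : ∀ x : L, φ x = 1 → ‖α x‖ = 1) (hn : 5 ≤ n)
    (hy : ∃ y ∈ L, ‖α y‖ ^ 2 ≤ 1 / 2) (u : L) :
    ((φ u : Equiv.Perm (Fin n)).support.card : ℝ) ≤ 4 * CA ^ 2 * n * (1 - ‖α u‖) := by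
  have hC := CA_ge
  have hC2 : (0 : ℝ) < 4 * CA ^ 2 := by positivity
  have hn0 : (0 : ℝ) < n := by exact_mod_cast (by omega : 0 < n)
  have hD : 0 ≤ 1 - ‖α u‖ := by linarith [hα.norm_le (u : G)]
  set k := (φ u : Equiv.Perm (Fin n)).support.card with hk
  have hkn : k ≤ n := by
    rw [hk]
    exact (card_le_univ _).trans (by simp)
  rcases le_or_gt n (4 * k) with h | h
  · have h1 := big_support hα hφ hker hn hy h
    rw [div_le_iff₀ hC2] at h1
    have h2 : (k : ℝ) ≤ n := by exact_mod_cast hkn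
    nlinarith
  rcases Nat.eq_zero_or_pos k with h0 | h0
  · rw [h0]
    push_cast
    positivity
  -- many disjoint conjugates
  set m := n / k with hm
  have hmk : m * k ≤ n := Nat.div_mul_le_self n k
  have hmk2 : n < m * k + k := by
    have := Nat.lt_div_mul_add h0 (a := n)
    exact this
  obtain ⟨w, hw1, hw2⟩ := disj (φ u) m hmk (by omega)
  choose W hW using fun i => hφ (w i)
  set v : Fin m → G := fun i => ((W i * u * (W i)⁻¹ : L) : G) with hv
  have hvα : ∀ i, α (v i) = α u := by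
    intro i
    simp only [hv, Subgroup.coe_mul, Subgroup.coe_inv]
    exact hα.cls _ _
  have hφv : ∀ i, φ (W i * u * (W i)⁻¹) = w i * φ u * (w i)⁻¹ := by
    intro i
    rw [map_mul, map_mul, map_inv, hW]
  have hcm : ∀ i j, w i * φ u * (w i)⁻¹ * (w j * φ u * (w j)⁻¹) =
      w j * φ u * (w j)⁻¹ * (w i * φ u * (w i)⁻¹) := by
    intro i j
    by_cases hij : i = j
    · rw [hij]
    · have h1 := hw1 hij
      have h2 : Equiv.Perm.Disjoint ((w i * φ u * (w i)⁻¹ : alternatingGroup (Fin n)) :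
        Equiv.Perm (Fin n)) ((w j * φ u * (w j)⁻¹ : alternatingGroup (Fin n)) :
        Equiv.Perm (Fin n)) := Equiv.Perm.disjoint_iff_disjoint_support.2 h1
      exact Subtype.ext h2.commute
  have hz : ∀ i j, ‖α (v i * v j * (v i)⁻¹ * (v j)⁻¹)‖ = 1 := by
    intro i j
    have h1 : φ ((W i * u * (W i)⁻¹) * (W j * u * (W j)⁻¹) * (W i * u * (W i)⁻¹)⁻¹ *
        (W j * u * (W j)⁻¹)⁻¹) = 1 := by
      rw [map_mul, map_mul, map_mul, map_inv, map_inv, hφv, hφv, hcm i j]
      group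
    have h2 := hker _ h1
    simpa only [hv, Subgroup.coe_mul, Subgroup.coe_inv] using h2
  by_cases hall : ∀ i j, α (v i * v j * (v i)⁻¹ * (v j)⁻¹) = 1
  · obtain ⟨e, he, hbd⟩ := H378.commuting hα v hvα hall
    -- the product
    set P : L := (List.ofFn fun i => (W i * u * (W i)⁻¹) ^ e i).prod with hP
    have hPc : (P : G) = (List.ofFn fun i => v i ^ e i).prod := by
      rw [hP, ← Subgroup.coe_subtype, map_list_prod, List.map_ofFn]
      congr 2
    have hφP : φ P = (List.ofFn fun i => (w i * φ u * (w i)⁻¹) ^ e i).prod := by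
      rw [hP, map_list_prod, List.map_ofFn]
      congr 2
      funext i
      simp only [Function.comp, map_zpow, hφv]
    have hcard := hw2 e he
    rw [← hφP] at hcard
    have h1 := big_support hα hφ hker hn hy (u := P) (by
      rw [hcard, ← hk]
      omega)
    rw [hPc] at h1
    have h2 := h1.trans hbd
    rw [div_le_iff₀ hC2] at h2
    have h3 : (m : ℝ) * k ≤ n := by exact_mod_cast hmk
    have hk0 : (0 : ℝ) < k := by exact_mod_cast h0
    have h4 : (k : ℝ) * 1 ≤ k * (m * (1 - ‖α u‖) * (4 * CA ^ 2)) :=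
      mul_le_mul_of_nonneg_left h2 hk0.le
    have h5 : (m : ℝ) * k * ((1 - ‖α u‖) * (4 * CA ^ 2)) ≤ n * ((1 - ‖α u‖) * (4 * CA ^ 2)) :=
      mul_le_mul_of_nonneg_right h3 (by positivity)
    nlinarith
  · push Not at hall
    obtain ⟨i, j, hij⟩ := hall
    have h1 : α (v j) = 0 := alpha_eq_zero hα (hz i j) hij rfl
    rw [hvα] at h1
    rw [h1, norm_zero, sub_zero, mul_one]
    have h2 : (k : ℝ) ≤ n := by exact_mod_cast hkn
    have h3 : (1 : ℝ) ≤ 4 * CA ^ 2 := by nlinarith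
    have h4 : (1 : ℝ) * n ≤ 4 * CA ^ 2 * n := mul_le_mul_of_nonneg_right h3 hn0.le
    linarith

end Vale.Agent.P318.R2.H221
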