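import Vale.Agent.P318.R2.H221.Alt
import Vale.Agent.P318.R2.H356.Avg3

/-!
# The cut of a nonlinear character over an alternating chief factor
-/

open Finset

set_option linter.unusedSectionVars false

namespace Vale.Agent.P318.R2.H221

open Vale.Agent.P318.R2.H356

variable {G : Type*} [Group G] [Fintype G] {α : G → ℂ} {n : ℕ} {L : Subgroup G}

/-- the stabiliser in `L` of the point `p` -/
def Mp (φ : L →* alternatingGroup (Fin n)) (p : Fin n) : Set G :=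
  {x | ∃ h : x ∈ L, (φ ⟨x, h⟩ : Equiv.Perm (Fin n)) p = p}

variable {φ : L →* alternatingGroup (Fin n)}

lemma swap_mem {a b c d : Fin n} (h1 : a ≠ b) (h2 : c ≠ d) :
    Equiv.swap a b * Equiv.swap c d ∈ alternatingGroup (Fin n) := by
  rw [Equiv.Perm.mem_alternatingGroup, Equiv.Perm.sign_mul, Equiv.Perm.sign_swap h1,
    Equiv.Perm.sign_swap h2]
  norm_num

lemma normalizer_ne_top (hφ : Function.Surjective φ) (hn : 5 ≤ n) (p : Fin n) :
    Subgroup.normalizer (Mp φ p) ≠ ⊤ := by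
  -- three further points
  obtain ⟨q, r, s, hq, hr, hs, hqr, hqs, hrs⟩ : ∃ q r s : Fin n, q ≠ p ∧ r ≠ p ∧ s ≠ p ∧
      q ≠ r ∧ q ≠ s ∧ r ≠ s := by
    have hcard : 3 ≤ (univ.erase p).card := by
      rw [card_erase_of_mem (mem_univ _), card_univ, Fintype.card_fin]
      omega
    obtain ⟨q, hq, r, hr, s, hs, h1, h2, h3⟩ := two_lt_card.1 (by omega : 2 < (univ.erase p).card)
    exact ⟨q, r, s, ne_of_mem_erase hq, ne_of_mem_erase hr, ne_of_mem_erase hs, h1, h2, h3⟩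
  intro htop
  obtain ⟨x, hx⟩ := hφ ⟨_, swap_mem hqr hrs⟩
  obtain ⟨y, hy⟩ := hφ ⟨_, swap_mem hq.symm hrs⟩
  have hxp : (φ x : Equiv.Perm (Fin n)) p = p := by
    rw [hx]
    change Equiv.swap q r (Equiv.swap r s p) = p
    rw [Equiv.swap_apply_of_ne_of_ne hr.symm hs.symm, Equiv.swap_apply_of_ne_of_ne hq.symm hr.symm]
  have hxq : (φ x : Equiv.Perm (Fin n)) q ≠ q := by
    rw [hx]
    change Equiv.swap q r (Equiv.swap r s q) ≠ q
    rw [Equiv.swap_apply_of_ne_of_ne hqr hqs, Equiv.swap_apply_left]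
    exact hqr.symm
  have hyp : (φ y : Equiv.Perm (Fin n)) p = q := by
    rw [hy]
    change Equiv.swap p q (Equiv.swap r s p) = q
    rw [Equiv.swap_apply_of_ne_of_ne hr.symm hs.symm, Equiv.swap_apply_left]
  have hmem : (y : G)⁻¹ ∈ Subgroup.normalizer (Mp φ p) := by rw [htop]; trivial
  have h1 := (hmem (x : G)).1 ⟨x.2, hxp⟩
  obtain ⟨h2, h3⟩ := h1
  have h4 : (⟨(y : G)⁻¹ * x * ((y : G)⁻¹)⁻¹, h2⟩ : L) = y⁻¹ * x * y := by
    apply Subtype.ext
    simp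
  rw [h4, map_mul, map_mul, map_inv] at h3
  change ((φ y : Equiv.Perm (Fin n))⁻¹ * (φ x : Equiv.Perm (Fin n)) *
    (φ y : Equiv.Perm (Fin n))) p = p at h3
  rw [Equiv.Perm.mul_apply, Equiv.Perm.mul_apply, hyp, Equiv.Perm.inv_eq_iff_eq, hyp] at h3
  exact hxq h3

open Classical in
/-- pigeonhole over the points -/
lemma exists_point (hn : 5 ≤ n) {c : G → ℝ} (hc : ∀ g, 0 ≤ c g) {K : ℝ}
    (hb : ∀ g, ((univ.filter fun p : Fin n => g ∉ Subgroup.normalizer (Mp φ p)).card : ℝ) ≤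
      K * n * (1 - ‖α g‖)) :
    ∃ p, ∑ g with g ∉ Subgroup.normalizer (Mp φ p), c g ≤ K * ∑ g, c g * (1 - ‖α g‖) := by
  have hn0 : (0 : ℝ) < n := by exact_mod_cast (by omega : 0 < n)
  by_contra hcon
  push Not at hcon
  have hne : (univ : Finset (Fin n)).Nonempty := ⟨⟨0, by omega⟩, mem_univ _⟩
  have h1 := sum_lt_sum_of_nonempty hne fun p _ => hcon p
  rw [sum_const, card_univ, Fintype.card_fin, nsmul_eq_mul] at h1
  have h2 : ∑ p : Fin n, ∑ g with g ∉ Subgroup.normalizer (Mp φ p), c g =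
      ∑ g, c g * ((univ.filter fun p : Fin n => g ∉ Subgroup.normalizer (Mp φ p)).card : ℝ) := by
    simp_rw [sum_filter]
    rw [sum_comm]
    apply sum_congr rfl
    intro g _
    rw [← sum_filter, sum_const, nsmul_eq_mul, mul_comm]
  rw [h2] at h1
  have h3 : ∑ g, c g * ((univ.filter fun p : Fin n =>
      g ∉ Subgroup.normalizer (Mp φ p)).card : ℝ) ≤ ∑ g, c g * (K * n * (1 - ‖α g‖)) :=
    sum_le_sum fun g _ => mul_le_mul_of_nonneg_left (hb g) (hc g)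
  have h4 : ∑ g, c g * (K * n * (1 - ‖α g‖)) = n * (K * ∑ g, c g * (1 - ‖α g‖)) := by
    rw [mul_sum, mul_sum]
    apply sum_congr rfl
    intro g _
    ring
  rw [h4] at h3
  exact absurd (h1.trans_le h3) (lt_irrefl _)

/-- conjugation by an element which normalises `L` -/
def cjL (g : G) (hg : ∀ x ∈ L, g * x * g⁻¹ ∈ L) : L →* L where
  toFun x := ⟨g * x * g⁻¹, hg x x.2⟩
  map_one' := by
    apply Subtype.ext
    simp
  map_mul' x y := by
    apply Subtype.ext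
    simp only [Subgroup.coe_mul]
    group

open Classical in
/-- an element which normalises `L` -/
lemma count_normal (hα : IsChr α) (hφ : Function.Surjective φ)
    (hker : ∀ x : L, φ x = 1 → ‖α x‖ = 1) (hn : 5 ≤ n)
    (hy : ∃ y ∈ L, ‖α y‖ ^ 2 ≤ 1 / 2) {g : G} (hg : ∀ x ∈ L, g * x * g⁻¹ ∈ L) :
    ((univ.filter fun p : Fin n => g ∉ Subgroup.normalizer (Mp φ p)).card : ℝ) ≤
      64 * CA ^ 2 * n * (1 - ‖α g‖) := by
  set ψ : L →* Equiv.Perm (Fin n) := (alternatingGroup (Fin n)).subtype.comp φ with hψ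
  obtain ⟨x, hx⟩ := exists_large_support ψ (cjL g hg)
  have hsub : (univ.filter fun p : Fin n => g ∉ Subgroup.normalizer (Mp φ p)).card ≤
      (univ.filter fun p => Bad ψ (cjL g hg) p).card := by
    apply card_le_card
    intro p hp
    rw [mem_filter] at hp ⊢
    refine ⟨mem_univ _, ?_⟩
    by_contra hbad
    apply hp.2
    apply Subgroup.mem_normalizer_fintype
    rintro m ⟨hm, hmp⟩
    refine ⟨hg m hm, ?_⟩
    by_contra h
    exact hbad ⟨⟨m, hm⟩, hmp, h⟩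
  have h1 := lin_support hα hφ hker hn hy (cjL g hg x * x⁻¹)
  have h2 : ((cjL g hg x * x⁻¹ : L) : G) = g * x * g⁻¹ * (x : G)⁻¹ := rfl
  rw [h2] at h1
  have h3 := le_sd_sq hα (g * x * g⁻¹ * (x : G)⁻¹)
  have h4 := sd_comm hα g x
  have h5 : sd α (g * x * g⁻¹ * (x : G)⁻¹) ^ 2 ≤ (2 * sd α g) ^ 2 :=
    pow_le_pow_left₀ (sd_nonneg α _) h4 2
  have h6 := sd_sq_le hα g
  have h7 : 1 - ‖α (g * x * g⁻¹ * (x : G)⁻¹)‖ ≤ 8 * (1 - ‖α g‖) := by nlinarith
  have h8 : ((univ.filter fun p : Fin n => g ∉ Subgroup.normalizer (Mp φ p)).card : ℝ) ≤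
      2 * ((φ (cjL g hg x * x⁻¹) : Equiv.Perm (Fin n)).support.card : ℝ) := by
    have e : ∀ (i1 i2 : DecidableEq (Fin n)) (σ : Equiv.Perm (Fin n)),
        (@Equiv.Perm.support _ i1 _ σ).card = (@Equiv.Perm.support _ i2 _ σ).card := by
      intro i1 i2 σ
      rw [Subsingleton.elim i1 i2]
    rw [e _ (instDecidableEqFin n)] at hx
    exact_mod_cast hsub.trans hx
  have h9 : 4 * CA ^ 2 * n * (1 - ‖α (g * x * g⁻¹ * (x : G)⁻¹)‖) ≤
      4 * CA ^ 2 * n * (8 * (1 - ‖α g‖)) := mul_le_mul_of_nonneg_left h7 (by positivity)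
  linarith

/-- an element which does not normalise `L` -/
lemma one_le_of_not_normal (hα : IsChr α) (hφ : Function.Surjective φ)
    (hker : ∀ x : L, φ x = 1 → ‖α x‖ = 1) (hn : 5 ≤ n)
    (hy : ∃ y ∈ L, ‖α y‖ ^ 2 ≤ 1 / 2) {g : G}
    (hg : ∀ a ∈ L, ∀ b ∈ L, sd α (a * b * a⁻¹ * b⁻¹) ≤ 4 * sd α g) :
    1 ≤ 576 * (1 - ‖α g‖) := by
  obtain ⟨f, hf, h0, h1, hm, hi, hcj⟩ := exists_f hα hφ hker
  obtain ⟨y, hyL, hy2⟩ := hy
  have h2 : ∀ a b, f (a * b * a⁻¹ * b⁻¹) ≤ 4 * sd α g := by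
    intro a b
    obtain ⟨a, rfl⟩ := hφ a
    obtain ⟨b, rfl⟩ := hφ b
    rw [← map_inv, ← map_inv, ← map_mul, ← map_mul, ← map_mul, hf]
    exact hg a a.2 b b.2
  have h3 := all_comm hm hcj hn h2 (φ ⟨y, hyL⟩)
  rw [hf] at h3
  have h4 : sd α y ^ 2 ≤ (3 * (4 * sd α g)) ^ 2 := pow_le_pow_left₀ (sd_nonneg α _) h3 2
  have h5 : 1 / 2 ≤ sd α y ^ 2 := by
    rw [sd_sq hα]; linarith
  have h6 := sd_sq_le hα g
  nlinarith

open Classical in
/-- **The cut over an alternating chief factor.** -/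
theorem alt_cut (hα : IsChr α) (hφ : Function.Surjective φ)
    (hker : ∀ x : L, φ x = 1 → ‖α x‖ = 1) (hn : 5 ≤ n)
    (hy : ∃ y ∈ L, ‖α y‖ ^ 2 ≤ 1 / 2)
    (hL : ∀ g : G, (∀ x ∈ L, g * x * g⁻¹ ∈ L) ∨
      ∀ a ∈ L, ∀ b ∈ L, sd α (a * b * a⁻¹ * b⁻¹) ≤ 4 * sd α g)
    {c : G → ℝ} (hc : ∀ g, 0 ≤ c g) :
    ∃ H : Subgroup G, H ≠ ⊤ ∧ ∑ g with g ∉ H, c g ≤ 64 * CA ^ 2 * ∑ g, c g * (1 - ‖α g‖) := by
  obtain ⟨p, hp⟩ := exists_point (φ := φ) (α := α) hn hc (K := 64 * CA ^ 2) (by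
    intro g
    rcases hL g with hg | hg
    · exact count_normal hα hφ hker hn hy hg
    · have h1 := one_le_of_not_normal hα hφ hker hn hy hg
      have h2 : ((univ.filter fun p : Fin n => g ∉ Subgroup.normalizer (Mp φ p)).card : ℝ) ≤
          n := by
        exact_mod_cast (card_le_univ _).trans (by simp)
      have hn0 : (0 : ℝ) < n := by exact_mod_cast (by omega : 0 < n)
      have hC := CA_ge
      have h3 : (576 : ℝ) ≤ 64 * CA ^ 2 := by nlinarith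
      have hD : 0 ≤ 1 - ‖α g‖ := by linarith [hα.norm_le g]
      have h4 : 576 * (1 - ‖α g‖) ≤ 64 * CA ^ 2 * (1 - ‖α g‖) :=
        mul_le_mul_of_nonneg_right h3 hD
      calc ((univ.filter fun p : Fin n => g ∉ Subgroup.normalizer (Mp φ p)).card : ℝ)
          ≤ n * 1 := by linarith
        _ ≤ n * (64 * CA ^ 2 * (1 - ‖α g‖)) :=
            mul_le_mul_of_nonneg_left (h1.trans h4) hn0.le
        _ = _ := by ring)
  exact ⟨_, normalizer_ne_top hφ hn p, hp⟩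

end Vale.Agent.P318.R2.H221
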