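import Vale.Agent.P318.R2.H221.LenA
import Vale.Agent.P318.R2.H402.Growth

/-!
# Conjugation invariant lengths on alternating groups of small degree

For `5 ≤ n` every element `t ≠ 1` satisfies `f v ≤ 118 * f t` for double transpositions `v`, hence
`f y ≤ 3 * j * 118 * f t` for all `y`, `j = n / 4`.
-/

open Finset

namespace Vale.Agent.P318.R2.H221

variable {n : ℕ} {f : alternatingGroup (Fin n) → ℝ}

lemma self_inv (e : Equiv.Perm (Fin n)) (p : Fin n) : e (e⁻¹ p) = p := e.apply_symm_apply p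

/-- a nontrivial commutator with small support -/
lemma exists_small (hn : 5 ≤ n) {t : alternatingGroup (Fin n)} (ht : t ≠ 1) :
    ∃ (w : alternatingGroup (Fin n)) (S : Finset (Fin n)), S.card = 5 ∧
      t * w * t⁻¹ * w⁻¹ ≠ 1 ∧
      ((t * w * t⁻¹ * w⁻¹ : alternatingGroup (Fin n)) : Equiv.Perm (Fin n)).support ⊆ S := by
  obtain ⟨p, hp⟩ : ∃ p, (t : Equiv.Perm (Fin n)) p ≠ p := by
    by_contra hcon
    push Not at hcon
    apply ht
    apply Subtype.ext
    ext x
    rw [hcon x]
    rfl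
  set g : Equiv.Perm (Fin n) := t.1 with hg
  obtain ⟨c, hc⟩ : ∃ c, c ∉ ({p, g p, g (g p)} : Finset (Fin n)) := by
    by_contra hcon
    push Not at hcon
    have h1 : (univ : Finset (Fin n)) ⊆ {p, g p, g (g p)} := fun c _ => hcon c
    have h2 := card_le_card h1
    rw [card_univ, Fintype.card_fin] at h2
    have h3 : ({p, g p, g (g p)} : Finset (Fin n)).card ≤ 3 := card_le_three
    omega
  simp only [mem_insert, mem_singleton, not_or] at hc
  obtain ⟨hcp, hcq, hcr⟩ := hc
  have hpq : p ≠ g p := hp.symm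
  have hmem : Equiv.swap p (g p) * Equiv.swap (g p) c ∈ alternatingGroup (Fin n) := by
    rw [Equiv.Perm.mem_alternatingGroup, Equiv.Perm.sign_mul, Equiv.Perm.sign_swap hpq,
      Equiv.Perm.sign_swap (Ne.symm hcq)]
    norm_num
  set w0 : Equiv.Perm (Fin n) := Equiv.swap p (g p) * Equiv.swap (g p) c with hw0
  have hwp : w0 p = g p := by
    rw [hw0, Equiv.Perm.mul_apply, Equiv.swap_apply_of_ne_of_ne hpq (Ne.symm hcp),
      Equiv.swap_apply_left]
  have hwq : w0 (g p) = c := by
    rw [hw0, Equiv.Perm.mul_apply, Equiv.swap_apply_left, Equiv.swap_apply_of_ne_of_ne hcp hcq]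
  have hwo : ∀ x, x ≠ p → x ≠ g p → x ≠ c → w0 x = x := by
    intro x h1 h2 h3
    rw [hw0, Equiv.Perm.mul_apply, Equiv.swap_apply_of_ne_of_ne h2 h3,
      Equiv.swap_apply_of_ne_of_ne h1 h2]
  -- the set of five points
  obtain ⟨S, hS, hS5⟩ : ∃ S : Finset (Fin n), ({p, g p, c, g (g p), g c} : Finset (Fin n)) ⊆ S ∧
      S.card = 5 :=
    exists_superset_card_eq card_le_five (by rw [Fintype.card_fin]; exact hn)
  refine ⟨⟨w0, hmem⟩, S, hS5, ?_, ?_⟩
  · intro h
    have h1 : g * w0 * g⁻¹ * w0⁻¹ = 1 := congrArg Subtype.val h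
    have h2 : g * w0 = w0 * g := by
      have h3 : g * w0 = (g * w0 * g⁻¹ * w0⁻¹) * (w0 * g) := by group
      rw [h3, h1, one_mul]
    have h4 := congrArg (fun e : Equiv.Perm (Fin n) => e p) h2
    simp only [Equiv.Perm.mul_apply] at h4
    rw [hwp, hwq] at h4
    exact hcr h4.symm
  · intro y hy
    by_contra hyS
    rw [Equiv.Perm.mem_support] at hy
    apply hy
    have hy' : y ∉ ({p, g p, c, g (g p), g c} : Finset (Fin n)) := fun h => hyS (hS h)
    simp only [mem_insert, mem_singleton, not_or] at hy'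
    obtain ⟨y1, y2, y3, y4, y5⟩ := hy'
    change (g * w0 * g⁻¹ * w0⁻¹) y = y
    simp only [Equiv.Perm.mul_apply]
    have e1 : w0⁻¹ y = y := by
      rw [Equiv.Perm.inv_eq_iff_eq]
      exact (hwo y y1 y2 y3).symm
    have e2 : w0 (g⁻¹ y) = g⁻¹ y := by
      apply hwo
      · intro h5; apply y2; rw [← h5, self_inv]
      · intro h5; apply y4; rw [← h5, self_inv]
      · intro h5; apply y5; rw [← h5, self_inv]
    rw [e1, e2, self_inv]

/-- double transpositions -/
lemma double_le (h0 : ∀ x, 0 ≤ f x) (h1 : f 1 = 0)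
    (hm : ∀ x y, f (x * y) ≤ f x + f y) (hi : ∀ x, f x⁻¹ = f x)
    (hcj : ∀ x y, f (x * y * x⁻¹) = f y) (hn : 5 ≤ n) {t : alternatingGroup (Fin n)}
    (ht : t ≠ 1) {v : alternatingGroup (Fin n)} (hv : v * v = 1)
    (hv4 : (v : Equiv.Perm (Fin n)).support.card = 4) : f v ≤ 118 * f t := by
  obtain ⟨w, S, hS, hne, hsupp⟩ := exists_small hn ht
  set x := t * w * t⁻¹ * w⁻¹ with hx
  have hfx : f x ≤ 2 * f t := by
    have e : x = t * (w * t⁻¹ * w⁻¹) := by rw [hx]; group
    have h2 := hm t (w * t⁻¹ * w⁻¹)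
    rw [hcj, hi, ← e] at h2
    linarith
  obtain ⟨a, b, ha, hb, hab, hab4⟩ := H678.comm_inv S 1 (by omega)
  obtain ⟨a', rfl⟩ := (alternatingGroup.mem_range_ofSubtype_iff S a).2 ha
  obtain ⟨b', rfl⟩ := (alternatingGroup.mem_range_ofSubtype_iff S b).2 hb
  obtain ⟨x', hx'⟩ := (alternatingGroup.mem_range_ofSubtype_iff S x).2 hsupp
  set E := alternatingGroup.ofSubtype S with hE
  have hcS : Nat.card S = 5 := by
    rw [Nat.card_eq_fintype_card, Fintype.card_coe, hS]
  have hsimple : IsSimpleGroup (alternatingGroup S) := alternatingGroup.isSimpleGroup hcS.ge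
  have hx1 : x' ≠ 1 := by
    rintro rfl
    rw [map_one] at hx'
    exact hne hx'.symm
  have hgr := H402.growth (T := alternatingGroup S) (f := fun y => f (E y)) (fun y => h0 _)
    (by rw [map_one, h1]) (fun y z => by rw [map_mul]; exact hm _ _)
    (fun y => by rw [map_inv]; exact hi _)
    (fun y z => by rw [map_mul, map_mul, map_inv]; exact hcj _ _) hx1
    (a' * b' * a'⁻¹ * b'⁻¹)
  have hcard : (Nat.card (ConjClasses (alternatingGroup S)) : ℝ) ≤ 60 := by
    have e1 : Nat.card (ConjClasses (alternatingGroup S)) ≤ Nat.card (alternatingGroup S) :=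
      Nat.card_le_card_of_surjective _ (Quot.mk_surjective : Function.Surjective
        (ConjClasses.mk : alternatingGroup S → _))
    have hnt : Nontrivial S := by
      rw [← Finite.one_lt_card_iff_nontrivial, hcS]
      norm_num
    have e2 : 2 * Nat.card (alternatingGroup S) = 120 := by
      rw [two_mul_nat_card_alternatingGroup, Nat.card_perm, hcS]
      rfl
    have e3 : Nat.card (ConjClasses (alternatingGroup S)) ≤ 60 := by omega
    exact_mod_cast e3
  have e4 : f v = f (E (a' * b' * a'⁻¹ * b'⁻¹)) := by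
    have h2 : IsConj (E (a' * b' * a'⁻¹ * b'⁻¹)) v := by
      apply H678.conj_inv
      · rw [map_mul, map_mul, map_mul, map_inv, map_inv]
        exact hab
      · exact hv
      · rw [map_mul, map_mul, map_mul, map_inv, map_inv, hab4, hv4]
    exact H924.f_of_isConj hcj h2
  rw [e4]
  have h0x := h0 x
  have hgr' : f (E (a' * b' * a'⁻¹ * b'⁻¹)) ≤
      ((Nat.card (ConjClasses (alternatingGroup S)) : ℝ) - 1) * f x := by
    rw [← hx']
    exact hgr
  calc f (E (a' * b' * a'⁻¹ * b'⁻¹))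
      ≤ ((Nat.card (ConjClasses (alternatingGroup S)) : ℝ) - 1) * f x := hgr'
    _ ≤ 59 * f x := mul_le_mul_of_nonneg_right (by linarith) h0x
    _ ≤ 118 * f t := by linarith

/-- involutions -/
lemma inv_le (h0 : ∀ x, 0 ≤ f x) (h1 : f 1 = 0)
    (hm : ∀ x y, f (x * y) ≤ f x + f y) (hi : ∀ x, f x⁻¹ = f x)
    (hcj : ∀ x y, f (x * y * x⁻¹) = f y) (hn : 5 ≤ n) {t : alternatingGroup (Fin n)}
    (ht : t ≠ 1) (j : ℕ) : ∀ v : alternatingGroup (Fin n), v * v = 1 →
      (v : Equiv.Perm (Fin n)).support.card = 4 * j → f v ≤ j * (118 * f t) := by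
  induction j with
  | zero =>
    intro v hv hc
    have h2 : (v : Equiv.Perm (Fin n)) = 1 := by
      rw [mul_zero, Finset.card_eq_zero, Equiv.Perm.support_eq_empty_iff] at hc
      exact hc
    have h3 : v = 1 := Subtype.ext h2
    rw [h3, h1]
    simp
  | succ j ih =>
    intro v hv hc
    obtain ⟨v1, v2, hv1, hv2, hvv, hc1, hc2⟩ := H678.split_inv v hv 1 (by omega)
    rw [hvv]
    have h2 := double_le h0 h1 hm hi hcj hn ht hv1 (by omega)
    have h3 := ih v2 hv2 (by omega)
    have h4 := hm v1 v2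
    push_cast
    linarith

/-- the length lemma for small degree -/
theorem len_small (h0 : ∀ x, 0 ≤ f x) (h1 : f 1 = 0)
    (hm : ∀ x y, f (x * y) ≤ f x + f y) (hi : ∀ x, f x⁻¹ = f x)
    (hcj : ∀ x y, f (x * y * x⁻¹) = f y) (hn : 5 ≤ n) (hn40 : n < 40)
    {t : alternatingGroup (Fin n)} (ht : t ≠ 1) (y : alternatingGroup (Fin n)) :
    f y ≤ 3186 * f t := by
  have h0t := h0 t
  have key : ∀ v : alternatingGroup (Fin n), v * v = 1 → f v ≤ 9 * (118 * f t) := by
    intro v hv
    obtain ⟨j, hj⟩ := H678.four_dvd hv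
    have h2 := inv_le h0 h1 hm hi hcj hn ht j v hv hj
    have h3 : 4 * j ≤ n := by
      rw [← hj]
      exact (card_le_univ _).trans (by simp)
    have h4 : (j : ℝ) ≤ 9 := by exact_mod_cast (by omega : j ≤ 9)
    exact h2.trans (mul_le_mul_of_nonneg_right h4 (by positivity))
  obtain ⟨a, b, c, ha, hb, hc, rfl⟩ := H402.three_inv hn y
  have h2 := hm (a * b) c
  have h3 := hm a b
  have h4 := key a ha
  have h5 := key b hb
  have h6 := key c hc
  linarith

/-- **The length lemma for all degrees**, with an explicit constant. -/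
theorem len_all' (h0 : ∀ x, 0 ≤ f x) (h1 : f 1 = 0)
    (hm : ∀ x y, f (x * y) ≤ f x + f y) (hi : ∀ x, f x⁻¹ = f x)
    (hcj : ∀ x y, f (x * y * x⁻¹) = f y) (hn : 5 ≤ n) {t : alternatingGroup (Fin n)}
    (ht : n ≤ 4 * (t : Equiv.Perm (Fin n)).support.card) (y : alternatingGroup (Fin n)) :
    f y ≤ 3186 * f t := by
  rcases lt_or_ge n 40 with h40 | h40
  · have ht1 : t ≠ 1 := by
      rintro rfl
      simp at ht
      omega
    exact len_small h0 h1 hm hi hcj hn h40 ht1 y
  · have h2 := len h0 h1 hm hi hcj h40 ht y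
    have h3 := h0 t
    linarith

end Vale.Agent.P318.R2.H221
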