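import Vale.Agent.P318.R2.H221.Alt2
import Vale.Agent.P318.R2.H221.LenB

/-!
# The cut over an alternating chief factor, with an explicit constant
-/

open Finset

set_option linter.unusedSectionVars false

namespace Vale.Agent.P318.R2.H221

open Vale.Agent.P318.R2.H356

/-- the constant of the length lemma -/
noncomputable def CB : ℝ := 3186

lemma CB_ge : (288 : ℝ) ≤ CB := by norm_num [CB]

lemma CB_pos : 0 < CB := lt_of_lt_of_le (by norm_num) CB_ge

variable {G : Type*} [Group G] [Fintype G] {α : G → ℂ} {n : ℕ} {L : Subgroup G}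
  {φ : L →* alternatingGroup (Fin n)}

/-- large support -/
lemma big_supportB (hα : IsChr α) (hφ : Function.Surjective φ)
    (hker : ∀ x : L, φ x = 1 → ‖α x‖ = 1) (hn : 5 ≤ n)
    (hy : ∃ y ∈ L, ‖α y‖ ^ 2 ≤ 1 / 2) {u : L}
    (hu : n ≤ 4 * (φ u : Equiv.Perm (Fin n)).support.card) :
    1 / (4 * CB ^ 2) ≤ 1 - ‖α u‖ := by
  obtain ⟨f, hf, h0, h1, hm, hi, hcj⟩ := exists_f hα hφ hker
  obtain ⟨y, hyL, hy2⟩ := hy
  have h2 := len_all' h0 h1 hm hi hcj hn hu (φ ⟨y, hyL⟩)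
  rw [hf, hf] at h2
  have h3 : sd α y ^ 2 ≤ (CB * sd α u) ^ 2 := pow_le_pow_left₀ (sd_nonneg α _) h2 2
  rw [mul_pow] at h3
  have h4 : 1 / 2 ≤ sd α y ^ 2 := by
    rw [sd_sq hα]; linarith
  have h5 := sd_sq_le hα (u : G)
  have hC := CB_pos
  rw [div_le_iff₀ (by positivity)]
  have h6 : CB ^ 2 * sd α u ^ 2 ≤ CB ^ 2 * (2 * (1 - ‖α u‖)) :=
    mul_le_mul_of_nonneg_left h5 (by positivity)
  nlinarith

/-- **The pointwise bound**: linear in the support. -/
theorem lin_supportB (hα : IsChr α) (hφ : Function.Surjective φ)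
    (hker : ∀ x : L, φ x = 1 → ‖α x‖ = 1) (hn : 5 ≤ n)
    (hy : ∃ y ∈ L, ‖α y‖ ^ 2 ≤ 1 / 2) (u : L) :
    ((φ u : Equiv.Perm (Fin n)).support.card : ℝ) ≤ 4 * CB ^ 2 * n * (1 - ‖α u‖) := by
  have hC := CB_ge
  have hC2 : (0 : ℝ) < 4 * CB ^ 2 := by positivity
  have hn0 : (0 : ℝ) < n := by exact_mod_cast (by omega : 0 < n)
  have hD : 0 ≤ 1 - ‖α u‖ := by linarith [hα.norm_le (u : G)]
  set k := (φ u : Equiv.Perm (Fin n)).support.card with hk
  have hkn : k ≤ n := by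
    rw [hk]
    exact (card_le_univ _).trans (by simp)
  rcases le_or_gt n (4 * k) with h | h
  · have h1 := big_supportB hα hφ hker hn hy h
    rw [div_le_iff₀ hC2] at h1
    have h2 : (k : ℝ) ≤ n := by exact_mod_cast hkn
    nlinarith
  rcases Nat.eq_zero_or_pos k with h0 | h0
  · rw [h0]
    push_cast
    positivity
  -- many disjoint conjugates
  set m := n / k with hm
  have hmk : m * k ≤ n := Nat.div_mul_le_self n k
  have hmk2 : n < m * k + k := by
    have := Nat.lt_div_mul_add h0 (a := n)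
    exact this
  obtain ⟨w, hw1, hw2⟩ := disj (φ u) m hmk (by omega)
  choose W hW using fun i => hφ (w i)
  set v : Fin m → G := fun i => ((W i * u * (W i)⁻¹ : L) : G) with hv
  have hvα : ∀ i, α (v i) = α u := by
    intro i
    simp only [hv, Subgroup.coe_mul, Subgroup.coe_inv]
    exact hα.cls _ _
  have hφv : ∀ i, φ (W i * u * (W i)⁻¹) = w i * φ u * (w i)⁻¹ := by
    intro i
    rw [map_mul, map_mul, map_inv, hW]
  have hcm : ∀ i j, w i * φ u * (w i)⁻¹ * (w j * φ u * (w j)⁻¹) =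
      w j * φ u * (w j)⁻¹ * (w i * φ u * (w i)⁻¹) := by
    intro i j
    by_cases hij : i = j
    · rw [hij]
    · have h1 := hw1 hij
      have h2 : Equiv.Perm.Disjoint ((w i * φ u * (w i)⁻¹ : alternatingGroup (Fin n)) :
        Equiv.Perm (Fin n)) ((w j * φ u * (w j)⁻¹ : alternatingGroup (Fin n)) :
        Equiv.Perm (Fin n)) := Equiv.Perm.disjoint_iff_disjoint_support.2 h1
      exact Subtype.ext h2.commute
  have hz : ∀ i j, ‖α (v i * v j * (v i)⁻¹ * (v j)⁻¹)‖ = 1 := by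
    intro i j
    have h1 : φ ((W i * u * (W i)⁻¹) * (W j * u * (W j)⁻¹) * (W i * u * (W i)⁻¹)⁻¹ *
        (W j * u * (W j)⁻¹)⁻¹) = 1 := by
      rw [map_mul, map_mul, map_mul, map_inv, map_inv, hφv, hφv, hcm i j]
      group
    have h2 := hker _ h1
    simpa only [hv, Subgroup.coe_mul, Subgroup.coe_inv] using h2
  by_cases hall : ∀ i j, α (v i * v j * (v i)⁻¹ * (v j)⁻¹) = 1
  · obtain ⟨e, he, hbd⟩ := H378.commuting hα v hvα hall
    -- the product
    set P : L := (List.ofFn fun i => (W i * u * (W i)⁻¹) ^ e i).prod with hP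
    have hPc : (P : G) = (List.ofFn fun i => v i ^ e i).prod := by
      rw [hP, ← Subgroup.coe_subtype, map_list_prod, List.map_ofFn]
      congr 2
    have hφP : φ P = (List.ofFn fun i => (w i * φ u * (w i)⁻¹) ^ e i).prod := by
      rw [hP, map_list_prod, List.map_ofFn]
      congr 2
      funext i
      simp only [Function.comp, map_zpow, hφv]
    have hcard := hw2 e he
    rw [← hφP] at hcard
    have h1 := big_supportB hα hφ hker hn hy (u := P) (by
      rw [hcard, ← hk]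
      omega)
    rw [hPc] at h1
    have h2 := h1.trans hbd
    rw [div_le_iff₀ hC2] at h2
    have h3 : (m : ℝ) * k ≤ n := by exact_mod_cast hmk
    have hk0 : (0 : ℝ) < k := by exact_mod_cast h0
    have h4 : (k : ℝ) * 1 ≤ k * (m * (1 - ‖α u‖) * (4 * CB ^ 2)) :=
      mul_le_mul_of_nonneg_left h2 hk0.le
    have h5 : (m : ℝ) * k * ((1 - ‖α u‖) * (4 * CB ^ 2)) ≤ n * ((1 - ‖α u‖) * (4 * CB ^ 2)) :=
      mul_le_mul_of_nonneg_right h3 (by positivity)
    nlinarith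
  · push Not at hall
    obtain ⟨i, j, hij⟩ := hall
    have h1 : α (v j) = 0 := alpha_eq_zero hα (hz i j) hij rfl
    rw [hvα] at h1
    rw [h1, norm_zero, sub_zero, mul_one]
    have h2 : (k : ℝ) ≤ n := by exact_mod_cast hkn
    have h3 : (1 : ℝ) ≤ 4 * CB ^ 2 := by nlinarith
    have h4 : (1 : ℝ) * n ≤ 4 * CB ^ 2 * n := mul_le_mul_of_nonneg_right h3 hn0.le
    linarith

open Classical in
/-- an element which normalises `L` -/
lemma count_normalB (hα : IsChr α) (hφ : Function.Surjective φ)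
    (hker : ∀ x : L, φ x = 1 → ‖α x‖ = 1) (hn : 5 ≤ n)
    (hy : ∃ y ∈ L, ‖α y‖ ^ 2 ≤ 1 / 2) {g : G} (hg : ∀ x ∈ L, g * x * g⁻¹ ∈ L) :
    ((univ.filter fun p : Fin n => g ∉ Subgroup.normalizer (Mp φ p)).card : ℝ) ≤
      64 * CB ^ 2 * n * (1 - ‖α g‖) := by
  set ψ : L →* Equiv.Perm (Fin n) := (alternatingGroup (Fin n)).subtype.comp φ with hψ
  obtain ⟨x, hx⟩ := exists_large_support ψ (cjL g hg)
  have hsub : (univ.filter fun p : Fin n => g ∉ Subgroup.normalizer (Mp φ p)).card ≤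
      (univ.filter fun p => Bad ψ (cjL g hg) p).card := by
    apply card_le_card
    intro p hp
    rw [mem_filter] at hp ⊢
    refine ⟨mem_univ _, ?_⟩
    by_contra hbad
    apply hp.2
    apply Subgroup.mem_normalizer_fintype
    rintro m ⟨hm, hmp⟩
    refine ⟨hg m hm, ?_⟩
    by_contra h
    exact hbad ⟨⟨m, hm⟩, hmp, h⟩
  have h1 := lin_supportB hα hφ hker hn hy (cjL g hg x * x⁻¹)
  have h2 : ((cjL g hg x * x⁻¹ : L) : G) = g * x * g⁻¹ * (x : G)⁻¹ := rfl
  rw [h2] at h1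
  have h3 := le_sd_sq hα (g * x * g⁻¹ * (x : G)⁻¹)
  have h4 := sd_comm hα g x
  have h5 : sd α (g * x * g⁻¹ * (x : G)⁻¹) ^ 2 ≤ (2 * sd α g) ^ 2 :=
    pow_le_pow_left₀ (sd_nonneg α _) h4 2
  have h6 := sd_sq_le hα g
  have h7 : 1 - ‖α (g * x * g⁻¹ * (x : G)⁻¹)‖ ≤ 8 * (1 - ‖α g‖) := by nlinarith
  have h8 : ((univ.filter fun p : Fin n => g ∉ Subgroup.normalizer (Mp φ p)).card : ℝ) ≤
      2 * ((φ (cjL g hg x * x⁻¹) : Equiv.Perm (Fin n)).support.card : ℝ) := by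
    have e : ∀ (i1 i2 : DecidableEq (Fin n)) (σ : Equiv.Perm (Fin n)),
        (@Equiv.Perm.support _ i1 _ σ).card = (@Equiv.Perm.support _ i2 _ σ).card := by
      intro i1 i2 σ
      rw [Subsingleton.elim i1 i2]
    rw [e _ (instDecidableEqFin n)] at hx
    exact_mod_cast hsub.trans hx
  have h9 : 4 * CB ^ 2 * n * (1 - ‖α (g * x * g⁻¹ * (x : G)⁻¹)‖) ≤
      4 * CB ^ 2 * n * (8 * (1 - ‖α g‖)) := mul_le_mul_of_nonneg_left h7 (by positivity)
  linarith

open Classical in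
/-- **The cut over an alternating chief factor.** -/
theorem alt_cutB (hα : IsChr α) (hφ : Function.Surjective φ)
    (hker : ∀ x : L, φ x = 1 → ‖α x‖ = 1) (hn : 5 ≤ n)
    (hy : ∃ y ∈ L, ‖α y‖ ^ 2 ≤ 1 / 2)
    (hL : ∀ g : G, (∀ x ∈ L, g * x * g⁻¹ ∈ L) ∨
      ∀ a ∈ L, ∀ b ∈ L, sd α (a * b * a⁻¹ * b⁻¹) ≤ 4 * sd α g)
    {c : G → ℝ} (hc : ∀ g, 0 ≤ c g) :
    ∃ H : Subgroup G, H ≠ ⊤ ∧ ∑ g with g ∉ H, c g ≤ 64 * CB ^ 2 * ∑ g, c g * (1 - ‖α g‖) := by
  obtain ⟨p, hp⟩ := exists_point (φ := φ) (α := α) hn hc (K := 64 * CB ^ 2) (by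
    intro g
    rcases hL g with hg | hg
    · exact count_normalB hα hφ hker hn hy hg
    · have h1 := one_le_of_not_normal hα hφ hker hn hy hg
      have h2 : ((univ.filter fun p : Fin n => g ∉ Subgroup.normalizer (Mp φ p)).card : ℝ) ≤
          n := by
        exact_mod_cast (card_le_univ _).trans (by simp)
      have hn0 : (0 : ℝ) < n := by exact_mod_cast (by omega : 0 < n)
      have hC := CB_ge
      have h3 : (576 : ℝ) ≤ 64 * CB ^ 2 := by nlinarith
      have hD : 0 ≤ 1 - ‖α g‖ := by linarith [hα.norm_le g]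
      have h4 : 576 * (1 - ‖α g‖) ≤ 64 * CB ^ 2 * (1 - ‖α g‖) :=
        mul_le_mul_of_nonneg_right h3 hD
      calc ((univ.filter fun p : Fin n => g ∉ Subgroup.normalizer (Mp φ p)).card : ℝ)
          ≤ n * 1 := by linarith
        _ ≤ n * (64 * CB ^ 2 * (1 - ‖α g‖)) :=
            mul_le_mul_of_nonneg_left (h1.trans h4) hn0.le
        _ = _ := by ring)
  exact ⟨_, normalizer_ne_top hφ hn p, hp⟩

lemma CB_val : 64 * CB ^ 2 = 649638144 := by
  norm_num [CB]

end Vale.Agent.P318.R2.H221
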