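import Mathlib

/-! # Conjugates with disjoint supports in the alternating group -/

open Finset

namespace Vale.Agent.P318.R2.H221

variable {n : ℕ}

/-- an even permutation with prescribed values on a set whose complement has two points -/
lemma exists_even (S : Finset (Fin n)) (hS : S.card + 2 ≤ n) (ι : S ↪ Fin n) :
    ∃ w : alternatingGroup (Fin n), ∀ x : S, (w : Equiv.Perm (Fin n)) x = ι x := by
  classical
  -- any permutation
  obtain ⟨g, hg⟩ : ∃ g : Equiv.Perm (Fin n), ∀ x : S, g x = ι x := by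
    let e : {x // x ∈ S} ≃ {x // x ∈ Set.range ι} := Equiv.ofInjective ι ι.injective
    refine ⟨e.extendSubtype, fun x => ?_⟩
    rw [Equiv.extendSubtype_apply_of_mem e x x.2]
    rfl
  rcases Int.units_eq_one_or (Equiv.Perm.sign g) with h | h
  · exact ⟨⟨g, Equiv.Perm.mem_alternatingGroup.2 h⟩, hg⟩
  · have hc : 1 < Sᶜ.card := by
      rw [card_compl, Fintype.card_fin]; omega
    obtain ⟨a, ha, b, hb, hab⟩ := one_lt_card.1 hc
    rw [mem_compl] at ha hb
    refine ⟨⟨g * Equiv.swap a b, Equiv.Perm.mem_alternatingGroup.2 ?_⟩, fun x => ?_⟩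
    · rw [Equiv.Perm.sign_mul, h, Equiv.Perm.sign_swap hab]
      norm_num
    · change g (Equiv.swap a b x) = ι x
      rw [Equiv.swap_apply_of_ne_of_ne (fun h1 => ha (by rw [← h1]; exact x.2))
        (fun h1 => hb (by rw [← h1]; exact x.2)), hg]

theorem disj (t : alternatingGroup (Fin n)) (m : ℕ)
    (h : m * (t : Equiv.Perm (Fin n)).support.card ≤ n)
    (h2 : (t : Equiv.Perm (Fin n)).support.card + 2 ≤ n) :
    ∃ w : Fin m → alternatingGroup (Fin n),
      (Pairwise fun i j => Disjoint ((w i * t * (w i)⁻¹ : alternatingGroup (Fin n)) :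
        Equiv.Perm (Fin n)).support ((w j * t * (w j)⁻¹ : alternatingGroup (Fin n)) :
        Equiv.Perm (Fin n)).support) ∧
      ∀ e : Fin m → ℤ, (∀ i, e i = 1 ∨ e i = -1) →
        ((List.ofFn fun i => (w i * t * (w i)⁻¹) ^ e i).prod :
          alternatingGroup (Fin n)).1.support.card =
          m * (t : Equiv.Perm (Fin n)).support.card := by
  classical
  set S := (t : Equiv.Perm (Fin n)).support with hS
  obtain ⟨ι⟩ : Nonempty ((Fin m × S) ↪ Fin n) := by
    apply Function.Embedding.nonempty_of_card_le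
    rw [Fintype.card_prod, Fintype.card_fin, Fintype.card_fin, Fintype.card_coe]
    exact h
  have hι : ∀ i : Fin m, ∃ w : alternatingGroup (Fin n),
      ∀ x : S, (w : Equiv.Perm (Fin n)) x = ι (i, x) := by
    intro i
    exact exists_even S h2 ⟨fun x => ι (i, x), fun x y hxy => by
      have := ι.injective hxy
      exact (Prod.mk.inj this).2⟩
  choose w hw using hι
  have hsupp : ∀ i, ((w i * t * (w i)⁻¹ : alternatingGroup (Fin n)) :
      Equiv.Perm (Fin n)).support = S.map (w i : Equiv.Perm (Fin n)).toEmbedding := by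
    intro i
    exact Equiv.Perm.support_conj
  have hdisj : Pairwise fun i j => Disjoint ((w i * t * (w i)⁻¹ : alternatingGroup (Fin n)) :
        Equiv.Perm (Fin n)).support ((w j * t * (w j)⁻¹ : alternatingGroup (Fin n)) :
        Equiv.Perm (Fin n)).support := by
    intro i j hij
    rw [hsupp, hsupp, disjoint_left]
    intro x hx hx'
    rw [mem_map] at hx hx'
    obtain ⟨a, ha, rfl⟩ := hx
    obtain ⟨b, hb, hab⟩ := hx'
    have h1 : (w j : Equiv.Perm (Fin n)) b = (w i : Equiv.Perm (Fin n)) a := hab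
    have h3 := hw i ⟨a, ha⟩
    have h4 := hw j ⟨b, hb⟩
    have h5 : ι (j, ⟨b, hb⟩) = ι (i, ⟨a, ha⟩) := by rw [← h3, ← h4]; exact h1
    exact hij (Prod.mk.inj (ι.injective h5)).1.symm
  refine ⟨w, hdisj, fun e he => ?_⟩
  have hse : ∀ i, (((w i * t * (w i)⁻¹) ^ e i : alternatingGroup (Fin n)) :
      Equiv.Perm (Fin n)).support = ((w i * t * (w i)⁻¹ : alternatingGroup (Fin n)) :
      Equiv.Perm (Fin n)).support := by
    intro i
    rcases he i with h1 | h1
    · rw [h1, zpow_one]
    · rw [h1, zpow_neg_one, Subgroup.coe_inv, Equiv.Perm.support_inv]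
  have hcoe : (((List.ofFn fun i => (w i * t * (w i)⁻¹) ^ e i).prod :
      alternatingGroup (Fin n)) : Equiv.Perm (Fin n)) =
      (List.ofFn fun i => (((w i * t * (w i)⁻¹) ^ e i : alternatingGroup (Fin n)) :
        Equiv.Perm (Fin n))).prod := by
    rw [← Subgroup.coe_subtype, map_list_prod, List.map_ofFn]
    rfl
  change (((List.ofFn fun i => (w i * t * (w i)⁻¹) ^ e i).prod :
      alternatingGroup (Fin n)) : Equiv.Perm (Fin n)).support.card = _
  rw [hcoe, Equiv.Perm.card_support_prod_list_of_pairwise_disjoint]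
  · rw [List.map_ofFn, List.sum_ofFn]
    have h6 : ∀ i : Fin m, (card ∘ Equiv.Perm.support) (((w i * t * (w i)⁻¹) ^ e i :
        alternatingGroup (Fin n)) : Equiv.Perm (Fin n)) = S.card := by
      intro i
      rw [Function.comp_apply, hse, hsupp, card_map]
    refine (Finset.sum_congr rfl fun i _ => h6 i).trans ?_
    rw [sum_const, card_univ, Fintype.card_fin, smul_eq_mul]
  · rw [List.pairwise_ofFn]
    intro i j hij
    rw [Equiv.Perm.disjoint_iff_disjoint_support, hse, hse]
    exact hdisj hij.ne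

end Vale.Agent.P318.R2.H221
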