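import Vale.Agent.P318.R2.H221.Main

/-!
# Sparsest cut for conjugation invariant weights: the assembly for a general finite group

`main_gen`: if every nonlinear normalised irreducible character gives a proper subgroup which
carries all of the weight but `K * ∑ c g * (1 - (α g).re)`, then
`phi ≤ (2 * K + 1100 * L) * glValue`, where `L = 1 + log (1 + min (M, e, log |G^ab|))`.
-/

open Finset

set_option linter.unusedSectionVars false

namespace Vale.Agent.P318.R2.H221

open Vale.Agent.P318.H867 Vale.Agent.P318.R2.H356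

variable {G : Type*} [Group G] [Fintype G] [DecidableEq G]

/-- the nonlinear part, for a general finite group -/
lemma nonlin_part [Fintype (commutator G)] {c : G → ℝ} (hc : ∀ g, 0 ≤ c g)
    (hs : ∀ g, c g⁻¹ = c g) (hcl : ∀ x g, c (x * g * x⁻¹) = c g) {K : ℝ} (hK : 0 ≤ K)
    (hsub : ∀ α : G → ℂ, IsChr α → (∃ g, ‖α g‖ ≠ 1) →
      phi (fun x y : G => c (x⁻¹ * y)) * Fintype.card G ≤
        2 * (K * ∑ g, c g * (1 - (α g).re)))
    {h' : G × G → G → ℝ} (h0 : ∀ i x, ∑ h : commutator G, h' i (x * h) = 0) {E : ℝ}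
    (hE : ∑ g, c g * ∑ i, ∑ x, (h' i (x * g) - h' i x) ^ 2 ≤ E) :
    phi (fun x y : G => c (x⁻¹ * y)) * Fintype.card G * ∑ i, ∑ x, (h' i x) ^ 2 ≤ K * E := by
  classical
  have hE0 : 0 ≤ E := by
    refine le_trans ?_ hE
    exact sum_nonneg fun g _ => mul_nonneg (hc g)
      (sum_nonneg fun i _ => sum_nonneg fun x _ => sq_nonneg _)
  by_cases hall : ∀ i, h' i = 0
  · have : ∑ i, ∑ x, (h' i x) ^ 2 = 0 :=
      sum_eq_zero fun i _ => sum_eq_zero fun x _ => by rw [hall i]; simp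
    rw [this, mul_zero]
    positivity
  push Not at hall
  have hC : ∀ i x, ∑ h : commutator G, ((h' i (x * h) : ℝ) : ℂ) = 0 := by
    intro i x
    rw [← Complex.ofReal_sum, h0 i x, Complex.ofReal_zero]
  obtain ⟨i₀, hi₀⟩ := hall
  have hne : ∃ f : G → ℂ, f ≠ 0 ∧ ∀ x, ∑ h : commutator G, f (x * h) = 0 := by
    refine ⟨fun x => (h' i₀ x : ℂ), ?_, fun x => hC i₀ x⟩
    intro hz
    apply hi₀
    funext x
    have := congrFun hz x
    simpa using this
  obtain ⟨α, hα, hnl, hspec⟩ := R2.H678.specChr hs hcl hne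
  have h5 := hsub α hα hnl
  set lam := ∑ g, c g * (1 - (α g).re) with hlam
  have h1 : ∀ i, 2 * lam * ∑ x, (h' i x) ^ 2 ≤
      ∑ g, c g * ∑ x, (h' i (x * g) - h' i x) ^ 2 := by
    intro i
    have h := hspec (fun x => (h' i x : ℂ)) (fun x => hC i x)
    have e1 : ∀ x, ‖((h' i x : ℝ) : ℂ)‖ ^ 2 = (h' i x) ^ 2 := by
      intro x
      rw [Complex.norm_real, Real.norm_eq_abs, sq_abs]
    have e2 : ∀ g x, ‖((h' i (x * g) : ℝ) : ℂ) - ((h' i x : ℝ) : ℂ)‖ ^ 2 =
        (h' i (x * g) - h' i x) ^ 2 := by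
      intro g x
      rw [← Complex.ofReal_sub, Complex.norm_real, Real.norm_eq_abs, sq_abs]
    simpa only [e1, e2] using h
  have h2 : 2 * lam * ∑ i, ∑ x, (h' i x) ^ 2 ≤
      ∑ g, c g * ∑ i, ∑ x, (h' i (x * g) - h' i x) ^ 2 := by
    rw [mul_sum]
    simp_rw [mul_sum (s := (univ : Finset (G × G)))]
    rw [sum_comm (s := (univ : Finset G)) (t := (univ : Finset (G × G)))]
    exact sum_le_sum fun i _ => h1 i
  have hS0 : 0 ≤ ∑ i, ∑ x, (h' i x) ^ 2 :=
    sum_nonneg fun i _ => sum_nonneg fun x _ => sq_nonneg _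
  calc phi (fun x y : G => c (x⁻¹ * y)) * Fintype.card G * ∑ i, ∑ x, (h' i x) ^ 2
      ≤ 2 * (K * lam) * ∑ i, ∑ x, (h' i x) ^ 2 := mul_le_mul_of_nonneg_right h5 hS0
    _ = K * (2 * lam * ∑ i, ∑ x, (h' i x) ^ 2) := by ring
    _ ≤ K * E := mul_le_mul_of_nonneg_left (h2.trans hE) hK

/-- the linear part -/
lemma lin_part [Fintype (Ab G)] [DecidableEq (Ab G)] {c : G → ℝ} (hc : ∀ g, 0 ≤ c g)
    (hs : ∀ g, c g⁻¹ = c g) {F : G → ℝ} (hadd : ∀ g h, F (g * h) ≤ F g + F h)
    (hinv : ∀ g, F g⁻¹ = F g) {A : AddChar (Ab G) ℂ → ℝ} (hA : ∀ χ, 0 ≤ A χ)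
    (hAF : ∀ g, ∑ χ, A χ * Q χ (pr g) ≤ F g) :
    phi (fun x y : G => c (x⁻¹ * y)) * Fintype.card G *
        ∑ χ ∈ univ.erase (0 : AddChar (Ab G) ℂ), A χ ≤
      550 * (1 + Real.log (1 + min ((univ.filter fun z : Ab G =>
          (if z = 0 then 0 else ∑ g with pr g = z, c g) ≠ 0).card : ℝ)
        (min (AddMonoid.exponent (Ab G) : ℝ) (Real.log (Fintype.card (Ab G)))))) *
        ∑ g, c g * F g := by
  set cb : Ab G → ℝ := fun z => if z = 0 then 0 else ∑ g with pr g = z, c g with hcb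
  set L := 1 + Real.log (1 + min ((univ.filter fun z : Ab G => cb z ≠ 0).card : ℝ)
        (min (AddMonoid.exponent (Ab G) : ℝ) (Real.log (Fintype.card (Ab G))))) with hL
  have hL0 : 0 ≤ L := by
    have h1 : 0 ≤ min ((univ.filter fun z : Ab G => cb z ≠ 0).card : ℝ)
        (min (AddMonoid.exponent (Ab G) : ℝ) (Real.log (Fintype.card (Ab G)))) :=
      le_min (by positivity) (le_min (by positivity) (Real.log_natCast_nonneg _))
    have := Real.log_nonneg (x := 1 + min ((univ.filter fun z : Ab G => cb z ≠ 0).card : ℝ)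
        (min (AddMonoid.exponent (Ab G) : ℝ) (Real.log (Fintype.card (Ab G))))) (by linarith)
    linarith
  have hF0 : ∀ g, 0 ≤ F g := fun g =>
    (sum_nonneg fun χ _ => mul_nonneg (hA χ) (Q_nonneg χ (pr g))).trans (hAF g)
  have hcF0 : 0 ≤ ∑ g, c g * F g := sum_nonneg fun g _ => mul_nonneg (hc g) (hF0 g)
  rcases (sum_nonneg fun χ _ => hA χ :
    0 ≤ ∑ χ ∈ univ.erase (0 : AddChar (Ab G) ℂ), A χ).eq_or_lt with hT | hTpos
  · rw [← hT, mul_zero]
    positivity
  -- the abelianization is nontrivial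
  have hnt : Nontrivial (Ab G) := by
    by_contra hcon
    rw [not_nontrivial_iff_subsingleton] at hcon
    have hz : ∀ χ : AddChar (Ab G) ℂ, χ = 0 := by
      intro χ
      ext z
      rw [Subsingleton.elim z 0, AddChar.map_zero_eq_one, AddChar.map_zero_eq_one]
    have : univ.erase (0 : AddChar (Ab G) ℂ) = ∅ := by
      ext χ
      simp [hz χ]
    rw [this, sum_empty] at hTpos
    exact lt_irrefl _ hTpos
  obtain ⟨r, hr1, hr2⟩ := exists_min F
  have hr : ∀ z, ∑ χ, A χ * Q χ z ≤ r z := by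
    intro z
    obtain ⟨g, hg, hg2⟩ := hr2 z
    rw [hg2, ← hg]
    exact hAF g
  have hr0 : ∀ z, 0 ≤ r z := fun z =>
    (sum_nonneg fun χ _ => mul_nonneg (hA χ) (Q_nonneg χ z)).trans (hr z)
  have hradd : ∀ z w, r (z + w) ≤ r z + r w := by
    intro z w
    obtain ⟨g, hg, hg2⟩ := hr2 z
    obtain ⟨k, hk, hk2⟩ := hr2 w
    rw [hg2, hk2]
    refine le_trans ?_ (hadd g k)
    have := hr1 (g * k)
    rwa [pr_mul, hg, hk] at this
  have hrle : ∀ z, r (-z) ≤ r z := by
    intro z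
    obtain ⟨g, hg, hg2⟩ := hr2 z
    have := hr1 g⁻¹
    rwa [pr_inv, hg, hinv, ← hg2] at this
  have hre : ∀ z, r (-z) = r z := by
    intro z
    refine le_antisymm (hrle z) ?_
    have := hrle (-z)
    rwa [neg_neg] at this
  have hcb0 : ∀ z, 0 ≤ cb z := by
    intro z
    simp only [hcb]
    split_ifs
    · exact le_rfl
    · exact sum_nonneg fun g _ => hc g
  have hcbs : ∀ z, cb (-z) = cb z := by
    intro z
    simp only [hcb, neg_eq_zero]
    split_ifs
    · rfl
    · refine sum_bij (fun g _ => g⁻¹) ?_ ?_ ?_ ?_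
      · intro g hg
        rw [mem_filter] at hg ⊢
        exact ⟨mem_univ _, by rw [pr_inv, hg.2, neg_neg]⟩
      · intro a _ b _ hab
        exact inv_injective hab
      · intro g hg
        rw [mem_filter] at hg
        exact ⟨g⁻¹, mem_filter.2 ⟨mem_univ _, by rw [pr_inv, hg.2]⟩, inv_inv g⟩
      · intro g _
        rw [hs]
  have hlin := R2.H969.lin hA hr hradd hre hcb0 hcbs hTpos
  have hsum : ∑ z, cb z * r z ≤ ∑ g, c g * F g := by
    have h1 : ∑ z, cb z * r z ≤ ∑ z, (∑ g with pr g = z, c g) * r z := by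
      refine sum_le_sum fun z _ => mul_le_mul_of_nonneg_right ?_ (hr0 z)
      simp only [hcb]
      split_ifs
      · exact sum_nonneg fun g _ => hc g
      · exact le_rfl
    have h2 : ∑ z, (∑ g with pr g = z, c g) * r z = ∑ g, c g * r (pr g) :=
      (R2.H402.sum_coset c r).symm
    have h3 : ∑ g, c g * r (pr g) ≤ ∑ g, c g * F g :=
      sum_le_sum fun g _ => mul_le_mul_of_nonneg_left (hr1 g) (hc g)
    linarith
  have hpush : phi (fun x y : G => c (x⁻¹ * y)) * Fintype.card G ≤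
      phi (fun x y : Ab G => cb (x - y)) * Fintype.card (Ab G) := R2.H402.phi_push hc hs
  calc phi (fun x y : G => c (x⁻¹ * y)) * Fintype.card G *
        ∑ χ ∈ univ.erase (0 : AddChar (Ab G) ℂ), A χ
      ≤ phi (fun x y : Ab G => cb (x - y)) * Fintype.card (Ab G) *
        ∑ χ ∈ univ.erase (0 : AddChar (Ab G) ℂ), A χ :=
        mul_le_mul_of_nonneg_right hpush hTpos.le
    _ ≤ 550 * L * ∑ z, cb z * r z := hlin
    _ ≤ 550 * L * ∑ g, c g * F g := mul_le_mul_of_nonneg_left hsum (by positivity)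

/-- **Main theorem for a general finite group.**  `K` is a constant for the nonlinear
characters. -/
theorem main_phi [Nontrivial G] {c : G → ℝ} (hc : ∀ g, 0 ≤ c g)
    (hs : ∀ g, c g⁻¹ = c g) (hcl : ∀ x g, c (x * g * x⁻¹) = c g) {K : ℝ} (hK : 0 ≤ K)
    (hsub : ∀ α : G → ℂ, IsChr α → (∃ g, ‖α g‖ ≠ 1) →
      phi (fun x y : G => c (x⁻¹ * y)) * Fintype.card G ≤
        2 * (K * ∑ g, c g * (1 - (α g).re))) :
    phi (fun x y : G => c (x⁻¹ * y)) ≤
      (2 * K + 1100 * (1 + Real.log (1 + min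
        (Nat.card {z : Abelianization G // z ≠ 1 ∧ ∃ g, Abelianization.of g = z ∧ c g ≠ 0} : ℝ)
        (min (Monoid.exponent (Abelianization G) : ℝ)
          (Real.log (Nat.card (Abelianization G))))))) *
        glValue (fun x y : G => c (x⁻¹ * y)) := by
  classical
  let _ : Fintype (Ab G) := Fintype.ofFinite _
  let _ : Fintype (commutator G) := Fintype.ofFinite _
  set L := 1 + Real.log (1 + min
        (Nat.card {z : Abelianization G // z ≠ 1 ∧ ∃ g, Abelianization.of g = z ∧ c g ≠ 0} : ℝ)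
        (min (Monoid.exponent (Abelianization G) : ℝ)
          (Real.log (Nat.card (Abelianization G))))) with hL
  have hL' : L = 1 + Real.log (1 + min (classes c : ℝ)
        (min (AddMonoid.exponent (Ab G) : ℝ) (Real.log (Nat.card (Ab G))))) := by
    rw [AddMonoid.exponent_additive]
    rfl
  have hL1 : 1 ≤ L := by
    rw [hL']
    have h1 : 0 ≤ min (classes c : ℝ)
        (min (AddMonoid.exponent (Ab G) : ℝ) (Real.log (Nat.card (Ab G)))) :=
      le_min (by positivity) (le_min (by positivity) (Real.log_natCast_nonneg _))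
    have := Real.log_nonneg (x := 1 + min (classes c : ℝ)
        (min (AddMonoid.exponent (Ab G) : ℝ) (Real.log (Nat.card (Ab G))))) (by linarith)
    linarith
  have hG : (0 : ℝ) < Fintype.card G := by
    have := Fintype.card_pos (α := G)
    positivity
  apply phi_le_gl (by positivity)
  intro d hd h1
  obtain ⟨F, h', A, hadd, hinv, hcF, hA, h0, hF, hsum⟩ := R2.H378.avg hd h1
  have hcF' := hcF c hcl
  set O := (∑ i, ∑ j, c (i⁻¹ * j) * d i j) / 2 with hO
  have hO2 : ∑ g, c g * F g = 2 * Fintype.card G * O := by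
    rw [hcF', hO]; ring
  have hA' : ∀ g : G, 0 ≤ ∑ χ, A χ * Q χ (pr g) := fun g =>
    sum_nonneg fun χ _ => mul_nonneg (hA χ) (Q_nonneg χ _)
  have hh' : ∀ g : G, 0 ≤ ∑ i, ∑ x, (h' i (x * g) - h' i x) ^ 2 := fun g =>
    sum_nonneg fun i _ => sum_nonneg fun x _ => sq_nonneg _
  have hE : ∑ g, c g * ∑ i, ∑ x, (h' i (x * g) - h' i x) ^ 2 ≤ 2 * Fintype.card G * O := by
    rw [← hO2]
    refine sum_le_sum fun g _ => mul_le_mul_of_nonneg_left ?_ (hc g)
    rw [hF g]
    exact le_add_of_nonneg_left (hA' g)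
  have h2 := nonlin_part hc hs hcl hK hsub h0 hE
  have h3 := lin_part hc hs hadd hinv hA (fun g => by
    rw [hF g]
    exact le_add_of_nonneg_right (hh' g))
  rw [card_support hc, ← Nat.card_eq_fintype_card (α := Ab G), ← hL', hO2] at h3
  have hkey : phi (fun x y : G => c (x⁻¹ * y)) * Fintype.card G ≤
      (2 * K + 1100 * L) * O * Fintype.card G := by
    have h4 : phi (fun x y : G => c (x⁻¹ * y)) * Fintype.card G =
        phi (fun x y : G => c (x⁻¹ * y)) * Fintype.card G *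
          ∑ χ ∈ univ.erase (0 : AddChar (Ab G) ℂ), A χ +
        phi (fun x y : G => c (x⁻¹ * y)) * Fintype.card G * ∑ i, ∑ x, (h' i x) ^ 2 := by
      rw [← mul_add]
      exact ((congrArg _ hsum).trans (mul_one _)).symm
    rw [h4]
    calc _ ≤ 550 * L * (2 * Fintype.card G * O) + K * (2 * Fintype.card G * O) :=
          add_le_add h3 h2
      _ = _ := by ring
  exact le_of_mul_le_mul_right hkey hG

open Classical in
/-- The general assembly, with subgroup cuts. -/
theorem main_gen {G : Type*} [Group G] [Fintype G] [DecidableEq G] [Nontrivial G] {c : G → ℝ}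
    (hc : ∀ g, 0 ≤ c g) (hs : ∀ g, c g⁻¹ = c g) (hcl : ∀ x g, c (x * g * x⁻¹) = c g) {K : ℝ}
    (hK : 0 ≤ K)
    (hnl : ∀ α : G → ℂ, IsChr α → (∃ g, ‖α g‖ ≠ 1) →
      ∃ H : Subgroup G, H ≠ ⊤ ∧ ∑ g with g ∉ H, c g ≤ K * ∑ g, c g * (1 - (α g).re)) :
    phi (fun x y : G => c (x⁻¹ * y)) ≤
      (2 * K + 1100 * (1 + Real.log (1 + min
        (Nat.card {z : Abelianization G // z ≠ 1 ∧ ∃ g, Abelianization.of g = z ∧ c g ≠ 0} : ℝ)
        (min (Monoid.exponent (Abelianization G) : ℝ)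
          (Real.log (Nat.card (Abelianization G))))))) *
        glValue (fun x y : G => c (x⁻¹ * y)) := by
  refine main_phi hc hs hcl hK fun α hα h1 => ?_
  obtain ⟨H, hH, hcut⟩ := hnl α hα h1
  have h5 := R2.H402.phi_le_subgroup hc hH
  linarith

end Vale.Agent.P318.R2.H221
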