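import Vale.Agent.P318.R2.H378.Avg
import Vale.Agent.P318.R2.H402.Cuts
import Vale.Agent.P318.R2.H678.SpecC
import Vale.Agent.P318.R2.H924.Nonlin
import Vale.Agent.P318.R2.H969.Lin

/-!
# Sparsest cut on Cayley graphs of solvable groups with conjugation invariant weights

The assembly: averaging over the group (`R2.H378.Avg`), the spectral bound of the nonlinear part
(`R2.H678.SpecC`), the subgroup cut from a nonlinear character (`R2.H924.Nonlin`), the rounding of
the linear part (`R2.H969.Lin`) and the two cut lemmas (`R2.H402.Cuts`).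
-/

open Finset

set_option linter.unusedSectionVars false

namespace Vale.Agent.P318.R2.H221

open Vale.Agent.P318.H867 Vale.Agent.P318.R2.H356

variable {G : Type*} [Group G] [Fintype G] [DecidableEq G]

/-- from every feasible solution to the relaxation -/
lemma phi_le_gl [Nontrivial G] {c : G → G → ℝ} {B : ℝ} (hB : 0 < B)
    (h : ∀ d : G → G → ℝ, IsNegTypeSemimetric d → (∑ i, ∑ j, d i j) / 2 = 1 →
      phi c ≤ B * ((∑ i, ∑ j, c i j * d i j) / 2)) :
    phi c ≤ B * glValue c := by
  rw [← div_le_iff₀' hB]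
  apply le_csInf
  · obtain ⟨d, hd, h1⟩ := exists_feasible G
    exact ⟨_, d, hd, h1, rfl⟩
  · rintro r ⟨d, hd, h1, rfl⟩
    rw [div_le_iff₀' hB]
    exact h d hd h1

/-- the abelianization, written additively -/
abbrev Ab (G : Type*) [Group G] := Additive (Abelianization G)

/-- the projection -/
def pr (g : G) : Ab G := Additive.ofMul (Abelianization.of g)

lemma pr_mul (g h : G) : pr (g * h) = pr g + pr h := by
  simp only [pr, map_mul, ofMul_mul]

lemma pr_inv (g : G) : pr g⁻¹ = - pr g := by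
  simp only [pr, map_inv, ofMul_inv]

lemma pr_one : pr (1 : G) = 0 := by
  simp only [pr, map_one, ofMul_one]

lemma pr_surj : Function.Surjective (pr : G → Ab G) := by
  intro z
  obtain ⟨g, hg⟩ := QuotientGroup.mk_surjective (Additive.toMul z)
  refine ⟨g, ?_⟩
  have : Abelianization.of g = Additive.toMul z := hg
  change Additive.ofMul (Abelianization.of g) = z
  rw [this]; rfl

/-- the minimum over a coset of the commutator subgroup -/
lemma exists_min (F : G → ℝ) :
    ∃ r : Ab G → ℝ, (∀ g, r (pr g) ≤ F g) ∧ ∀ z, ∃ g, pr g = z ∧ r z = F g := by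
  classical
  have h : ∀ z : Ab G, ∃ g : G, pr g = z ∧ ∀ g', pr g' = z → F g ≤ F g' := by
    intro z
    have hne : (univ.filter fun g : G => pr g = z).Nonempty := by
      obtain ⟨g, hg⟩ := pr_surj z
      exact ⟨g, by simp [hg]⟩
    obtain ⟨g, hg, hmin⟩ := exists_min_image _ F hne
    refine ⟨g, (mem_filter.1 hg).2, fun g' hg' => hmin g' (by simp [hg'])⟩
  choose s hs1 hs2 using h
  exact ⟨fun z => F (s z), fun g => hs2 _ g rfl, fun z => ⟨s z, hs1 z, rfl⟩⟩

/-- the first case: the nonlinear part carries a share of at least `2 / 277` -/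
lemma case_nonlin [Group.IsSolvable G] [Fintype (commutator G)] {c : G → ℝ} (hc : ∀ g, 0 ≤ c g)
    (hs : ∀ g, c g⁻¹ = c g) (hcl : ∀ x g, c (x * g * x⁻¹) = c g) {h' : G × G → G → ℝ}
    (h0 : ∀ i x, ∑ h : commutator G, h' i (x * h) = 0)
    (hpos : 2 / 277 ≤ ∑ i, ∑ x, (h' i x) ^ 2) {E : ℝ}
    (hE : ∑ g, c g * ∑ i, ∑ x, (h' i (x * g) - h' i x) ^ 2 ≤ E) :
    phi (fun x y : G => c (x⁻¹ * y)) * Fintype.card G ≤ 554 * E := by
  classical
  -- a nonzero function
  have hex : ∃ i, h' i ≠ 0 := by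
    by_contra hcon
    push Not at hcon
    have : ∑ i, ∑ x, (h' i x) ^ 2 = 0 :=
      sum_eq_zero fun i _ => sum_eq_zero fun x _ => by rw [hcon i]; simp
    rw [this] at hpos
    norm_num at hpos
  have hC : ∀ i x, ∑ h : commutator G, ((h' i (x * h) : ℝ) : ℂ) = 0 := by
    intro i x
    rw [← Complex.ofReal_sum, h0 i x, Complex.ofReal_zero]
  obtain ⟨i₀, hi₀⟩ := hex
  have hne : ∃ f : G → ℂ, f ≠ 0 ∧ ∀ x, ∑ h : commutator G, f (x * h) = 0 := by
    refine ⟨fun x => (h' i₀ x : ℂ), ?_, fun x => hC i₀ x⟩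
    intro hz
    apply hi₀
    funext x
    have := congrFun hz x
    simpa using this
  obtain ⟨α, hα, hnl, hspec⟩ := R2.H678.specChr hs hcl hne
  set lam := ∑ g, c g * (1 - (α g).re) with hlam
  have h1 : ∀ i, 2 * lam * ∑ x, (h' i x) ^ 2 ≤
      ∑ g, c g * ∑ x, (h' i (x * g) - h' i x) ^ 2 := by
    intro i
    have h := hspec (fun x => (h' i x : ℂ)) (fun x => hC i x)
    have e1 : ∀ x, ‖((h' i x : ℝ) : ℂ)‖ ^ 2 = (h' i x) ^ 2 := by
      intro x
      rw [Complex.norm_real, Real.norm_eq_abs, sq_abs]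
    have e2 : ∀ g x, ‖((h' i (x * g) : ℝ) : ℂ) - ((h' i x : ℝ) : ℂ)‖ ^ 2 =
        (h' i (x * g) - h' i x) ^ 2 := by
      intro g x
      rw [← Complex.ofReal_sub, Complex.norm_real, Real.norm_eq_abs, sq_abs]
    simpa only [e1, e2] using h
  have h2 : 2 * lam * ∑ i, ∑ x, (h' i x) ^ 2 ≤
      ∑ g, c g * ∑ i, ∑ x, (h' i (x * g) - h' i x) ^ 2 := by
    rw [mul_sum]
    simp_rw [mul_sum (s := (univ : Finset (G × G)))]
    rw [sum_comm (s := (univ : Finset G)) (t := (univ : Finset (G × G)))]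
    exact sum_le_sum fun i _ => h1 i
  have hlam0 : 0 ≤ lam := by
    rw [hlam]
    refine sum_nonneg fun g _ => mul_nonneg (hc g) ?_
    have h3 := (Complex.re_le_norm (α g)).trans (hα.norm_le g)
    linarith
  have h4 : lam * (4 / 277) ≤ E := by
    have h3 : 2 * lam * (2 / 277) ≤ 2 * lam * ∑ i, ∑ x, (h' i x) ^ 2 :=
      mul_le_mul_of_nonneg_left hpos (by positivity)
    linarith [h2.trans hE]
  obtain ⟨H, hH, hcut⟩ := R2.H924.nonlin hα hnl hc
  have h5 := R2.H402.phi_le_subgroup hc hH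
  linarith

/-- the second case: the linear part carries a share of at least `275 / 277` -/
lemma case_lin [Fintype (Ab G)] [DecidableEq (Ab G)] {c : G → ℝ} (hc : ∀ g, 0 ≤ c g)
    (hs : ∀ g, c g⁻¹ = c g) {F : G → ℝ} (hadd : ∀ g h, F (g * h) ≤ F g + F h)
    (hinv : ∀ g, F g⁻¹ = F g) {A : AddChar (Ab G) ℂ → ℝ} (hA : ∀ χ, 0 ≤ A χ)
    (hAF : ∀ g, ∑ χ, A χ * Q χ (pr g) ≤ F g)
    (hT : 275 / 277 ≤ ∑ χ ∈ univ.erase (0 : AddChar (Ab G) ℂ), A χ) :
    phi (fun x y : G => c (x⁻¹ * y)) * Fintype.card G ≤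
      554 * (1 + Real.log (1 + min ((univ.filter fun z : Ab G =>
          (if z = 0 then 0 else ∑ g with pr g = z, c g) ≠ 0).card : ℝ)
        (min (AddMonoid.exponent (Ab G) : ℝ) (Real.log (Fintype.card (Ab G)))))) *
        ∑ g, c g * F g := by
  -- the abelianization is nontrivial
  have hnt : Nontrivial (Ab G) := by
    by_contra hcon
    rw [not_nontrivial_iff_subsingleton] at hcon
    have hz : ∀ χ : AddChar (Ab G) ℂ, χ = 0 := by
      intro χ
      ext z
      rw [Subsingleton.elim z 0, AddChar.map_zero_eq_one, AddChar.map_zero_eq_one]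
    have : univ.erase (0 : AddChar (Ab G) ℂ) = ∅ := by
      ext χ
      simp [hz χ]
    rw [this, sum_empty] at hT
    norm_num at hT
  obtain ⟨r, hr1, hr2⟩ := exists_min F
  have hr : ∀ z, ∑ χ, A χ * Q χ z ≤ r z := by
    intro z
    obtain ⟨g, hg, hg2⟩ := hr2 z
    rw [hg2, ← hg]
    exact hAF g
  have hr0 : ∀ z, 0 ≤ r z := fun z =>
    (sum_nonneg fun χ _ => mul_nonneg (hA χ) (Q_nonneg χ z)).trans (hr z)
  have hradd : ∀ z w, r (z + w) ≤ r z + r w := by
    intro z w
    obtain ⟨g, hg, hg2⟩ := hr2 z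
    obtain ⟨k, hk, hk2⟩ := hr2 w
    rw [hg2, hk2]
    refine le_trans ?_ (hadd g k)
    have := hr1 (g * k)
    rwa [pr_mul, hg, hk] at this
  have hrle : ∀ z, r (-z) ≤ r z := by
    intro z
    obtain ⟨g, hg, hg2⟩ := hr2 z
    have := hr1 g⁻¹
    rwa [pr_inv, hg, hinv, ← hg2] at this
  have hre : ∀ z, r (-z) = r z := by
    intro z
    refine le_antisymm (hrle z) ?_
    have := hrle (-z)
    rwa [neg_neg] at this
  set cb : Ab G → ℝ := fun z => if z = 0 then 0 else ∑ g with pr g = z, c g with hcb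
  have hcb0 : ∀ z, 0 ≤ cb z := by
    intro z
    simp only [hcb]
    split_ifs
    · exact le_rfl
    · exact sum_nonneg fun g _ => hc g
  have hcbs : ∀ z, cb (-z) = cb z := by
    intro z
    simp only [hcb, neg_eq_zero]
    split_ifs
    · rfl
    · refine sum_bij (fun g _ => g⁻¹) ?_ ?_ ?_ ?_
      · intro g hg
        rw [mem_filter] at hg ⊢
        exact ⟨mem_univ _, by rw [pr_inv, hg.2, neg_neg]⟩
      · intro a _ b _ hab
        exact inv_injective hab
      · intro g hg
        rw [mem_filter] at hg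
        exact ⟨g⁻¹, mem_filter.2 ⟨mem_univ _, by rw [pr_inv, hg.2]⟩, inv_inv g⟩
      · intro g _
        rw [hs]
  have hTpos : 0 < ∑ χ ∈ univ.erase (0 : AddChar (Ab G) ℂ), A χ := by linarith
  have hlin := R2.H969.lin hA hr hradd hre hcb0 hcbs hTpos
  have hsum : ∑ z, cb z * r z ≤ ∑ g, c g * F g := by
    have h1 : ∑ z, cb z * r z ≤ ∑ z, (∑ g with pr g = z, c g) * r z := by
      refine sum_le_sum fun z _ => mul_le_mul_of_nonneg_right ?_ (hr0 z)
      simp only [hcb]
      split_ifs
      · exact sum_nonneg fun g _ => hc g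
      · exact le_rfl
    have h2 : ∑ z, (∑ g with pr g = z, c g) * r z = ∑ g, c g * r (pr g) :=
      (R2.H402.sum_coset c r).symm
    have h3 : ∑ g, c g * r (pr g) ≤ ∑ g, c g * F g :=
      sum_le_sum fun g _ => mul_le_mul_of_nonneg_left (hr1 g) (hc g)
    linarith
  have hpush : phi (fun x y : G => c (x⁻¹ * y)) * Fintype.card G ≤
      phi (fun x y : Ab G => cb (x - y)) * Fintype.card (Ab G) := R2.H402.phi_push hc hs
  have hphi0 : 0 ≤ phi (fun x y : Ab G => cb (x - y)) * Fintype.card (Ab G) :=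
    mul_nonneg (phi_nonneg fun i j => hcb0 _) (by positivity)
  set L := 1 + Real.log (1 + min ((univ.filter fun z : Ab G => cb z ≠ 0).card : ℝ)
        (min (AddMonoid.exponent (Ab G) : ℝ) (Real.log (Fintype.card (Ab G))))) with hL
  have hL0 : 0 ≤ L := by
    have h1 : 0 ≤ min ((univ.filter fun z : Ab G => cb z ≠ 0).card : ℝ)
        (min (AddMonoid.exponent (Ab G) : ℝ) (Real.log (Fintype.card (Ab G)))) :=
      le_min (by positivity) (le_min (by positivity) (Real.log_natCast_nonneg _))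
    have := Real.log_nonneg (x := 1 + min ((univ.filter fun z : Ab G => cb z ≠ 0).card : ℝ)
        (min (AddMonoid.exponent (Ab G) : ℝ) (Real.log (Fintype.card (Ab G))))) (by linarith)
    linarith
  have h5 : phi (fun x y : Ab G => cb (x - y)) * Fintype.card (Ab G) * (275 / 277) ≤
      550 * L * ∑ z, cb z * r z :=
    (mul_le_mul_of_nonneg_left hT hphi0).trans hlin
  have h6 : 550 * L * ∑ z, cb z * r z ≤ 550 * L * ∑ g, c g * F g :=
    mul_le_mul_of_nonneg_left hsum (by positivity)
  linarith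

/-- The number of nontrivial classes met by the support of the weight. -/
noncomputable def classes (c : G → ℝ) : ℕ :=
  Nat.card {z : Ab G // z ≠ 0 ∧ ∃ g, pr g = z ∧ c g ≠ 0}

lemma card_support [Fintype (Ab G)] [DecidableEq (Ab G)] {c : G → ℝ} (hc : ∀ g, 0 ≤ c g) :
    (univ.filter fun z : Ab G =>
      (if z = 0 then 0 else ∑ g with pr g = z, c g) ≠ 0).card = classes c := by
  classical
  unfold classes
  rw [Nat.card_eq_fintype_card, Fintype.card_subtype]
  congr 1
  ext z
  simp only [mem_filter, mem_univ, true_and]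
  by_cases hz : z = 0
  · simp [hz]
  · simp only [hz, if_false, ne_eq, not_false_eq_true, true_and]
    rw [sum_eq_zero_iff_of_nonneg fun g _ => hc g]
    push Not
    simp

/-- **Main theorem.** -/
theorem main [Nontrivial G] [Group.IsSolvable G] {c : G → ℝ} (hc : ∀ g, 0 ≤ c g)
    (hs : ∀ g, c g⁻¹ = c g) (hcl : ∀ x g, c (x * g * x⁻¹) = c g) :
    phi (fun x y : G => c (x⁻¹ * y)) ≤
      1108 * (1 + Real.log (1 + min (classes c : ℝ)
        (min (AddMonoid.exponent (Ab G) : ℝ) (Real.log (Nat.card (Ab G)))))) *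
        glValue (fun x y : G => c (x⁻¹ * y)) := by
  classical
  let _ : Fintype (Ab G) := Fintype.ofFinite _
  let _ : Fintype (commutator G) := Fintype.ofFinite _
  set L := 1 + Real.log (1 + min (classes c : ℝ)
        (min (AddMonoid.exponent (Ab G) : ℝ) (Real.log (Nat.card (Ab G))))) with hL
  have hL1 : 1 ≤ L := by
    have h1 : 0 ≤ min (classes c : ℝ)
        (min (AddMonoid.exponent (Ab G) : ℝ) (Real.log (Nat.card (Ab G)))) :=
      le_min (by positivity) (le_min (by positivity) (Real.log_natCast_nonneg _))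
    have := Real.log_nonneg (x := 1 + min (classes c : ℝ)
        (min (AddMonoid.exponent (Ab G) : ℝ) (Real.log (Nat.card (Ab G))))) (by linarith)
    linarith
  have hG : (0 : ℝ) < Fintype.card G := by
    have := Fintype.card_pos (α := G)
    positivity
  apply phi_le_gl (by positivity)
  intro d hd h1
  obtain ⟨F, h', A, hadd, hinv, hcF, hA, h0, hF, hsum⟩ := R2.H378.avg hd h1
  have hcF' := hcF c hcl
  set O := (∑ i, ∑ j, c (i⁻¹ * j) * d i j) / 2 with hO
  have hO2 : ∑ g, c g * F g = 2 * Fintype.card G * O := by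
    rw [hcF', hO]; ring
  have hO0 : 0 ≤ O := by
    obtain ⟨⟨v, hv⟩, -⟩ := hd
    rw [hO]
    have : 0 ≤ ∑ i, ∑ j, c (i⁻¹ * j) * d i j :=
      sum_nonneg fun i _ => sum_nonneg fun j _ => mul_nonneg (hc _) (by rw [hv]; positivity)
    positivity
  have hA' : ∀ g : G, 0 ≤ ∑ χ, A χ * Q χ (pr g) := fun g =>
    sum_nonneg fun χ _ => mul_nonneg (hA χ) (Q_nonneg χ _)
  have hh' : ∀ g : G, 0 ≤ ∑ i, ∑ x, (h' i (x * g) - h' i x) ^ 2 := fun g =>
    sum_nonneg fun i _ => sum_nonneg fun x _ => sq_nonneg _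
  have hkey : phi (fun x y : G => c (x⁻¹ * y)) * Fintype.card G ≤
      1108 * L * O * Fintype.card G := by
    rcases le_total (2 / 277) (∑ i, ∑ x, (h' i x) ^ 2) with hcase | hcase
    · have hE : ∑ g, c g * ∑ i, ∑ x, (h' i (x * g) - h' i x) ^ 2 ≤
          2 * Fintype.card G * O := by
        rw [← hO2]
        refine sum_le_sum fun g _ => mul_le_mul_of_nonneg_left ?_ (hc g)
        rw [hF g]
        exact le_add_of_nonneg_left (hA' g)
      have h2 := case_nonlin hc hs hcl h0 hcase hE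
      have h3 : 0 ≤ (L - 1) * (O * Fintype.card G) :=
        mul_nonneg (by linarith) (by positivity)
      linarith
    · have hT : 275 / 277 ≤ ∑ χ ∈ univ.erase (0 : AddChar (Ab G) ℂ), A χ := by linarith
      have h2 := case_lin hc hs hadd hinv hA (fun g => by
        rw [hF g]
        exact le_add_of_nonneg_right (hh' g)) hT
      rw [card_support hc, ← Nat.card_eq_fintype_card (α := Ab G), ← hL, hO2] at h2
      linarith
  exact le_of_mul_le_mul_right hkey hG

/-- `main` with the abelianization written multiplicatively -/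
theorem main' [Nontrivial G] [Group.IsSolvable G] {c : G → ℝ} (hc : ∀ g, 0 ≤ c g)
    (hs : ∀ g, c g⁻¹ = c g) (hcl : ∀ x g, c (x * g * x⁻¹) = c g) :
    phi (fun x y : G => c (x⁻¹ * y)) ≤
      1108 * (1 + Real.log (1 + min
        (Nat.card {z : Abelianization G // z ≠ 1 ∧ ∃ g, Abelianization.of g = z ∧ c g ≠ 0} : ℝ)
        (min (Monoid.exponent (Abelianization G) : ℝ)
          (Real.log (Nat.card (Abelianization G)))))) *
        glValue (fun x y : G => c (x⁻¹ * y)) := by
  have h := main hc hs hcl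
  rw [AddMonoid.exponent_additive] at h
  exact h

end Vale.Agent.P318.R2.H221
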