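import Vale.Agent.P318.R2.H221.Alt2
import Vale.Agent.P318.R2.H356.CaseI

/-!
# Nonlinear characters of finite groups with alternating composition factors

As `R2.H356.Gen`, with alternating groups of arbitrary degree allowed as composition factors.
-/

open Finset

set_option linter.unusedSectionVars false

namespace Vale.Agent.P318.R2.H221

open Vale.Agent.P318.R2.H356

open Classical in
/-- The subgroup of a nonlinear character: composition factors of bounded conjugacy diameter or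
alternating. -/
theorem nonlin3 {G : Type*} [Group G] [Fintype G] {d : ℕ}
    (hd : ∀ L : Subgroup G, L.IsSubnormal → ∀ (R : Subgroup L) [R.Normal],
      IsSimpleGroup (L ⧸ R) → (∃ a b : L ⧸ R, a * b ≠ b * a) →
      (∃ n, 5 ≤ n ∧ Nonempty ((L ⧸ R) ≃* alternatingGroup (Fin n))) ∨
      ∀ x y : L ⧸ R, x ≠ 1 → ∃ w : List (L ⧸ R), w.length ≤ d ∧
        (∀ u ∈ w, IsConj x u ∨ IsConj x⁻¹ u) ∧ w.prod = y)
    {α : G → ℂ} (hα : IsChr α) (hnl : ∃ g, ‖α g‖ ≠ 1) {c : G → ℝ} (hc : ∀ g, 0 ≤ c g) :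
    ∃ H : Subgroup G, H ≠ ⊤ ∧
      ∑ g with g ∉ H, c g ≤
        (4 + 64 * (d : ℝ) ^ 2 + 64 * CA ^ 2) * ∑ g, c g * (1 - (α g).re) := by
  have hZ : Zc hα ≠ ⊤ := by
    intro h
    obtain ⟨g, hg⟩ := hnl
    apply hg
    have : g ∈ Zc hα := by rw [h]; trivial
    exact this
  have hre : ∀ g, (α g).re ≤ ‖α g‖ := fun g => Complex.re_le_norm _
  have hle : ∑ g, c g * (1 - ‖α g‖) ≤ ∑ g, c g * (1 - (α g).re) :=
    sum_le_sum fun g _ => mul_le_mul_of_nonneg_left (by linarith [hre g]) (hc g)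
  have hpos0 : 0 ≤ ∑ g, c g * (1 - ‖α g‖) :=
    sum_nonneg fun g _ => mul_nonneg (hc g) (by linarith [hα.norm_le g])
  have hpos : 0 ≤ ∑ g, c g * (1 - (α g).re) := hpos0.trans hle
  have hd0 : (0 : ℝ) ≤ 64 * (d : ℝ) ^ 2 := by positivity
  have hCA0 : (0 : ℝ) ≤ 64 * CA ^ 2 := by positivity
  obtain ⟨N, hN, hNZ, hcase⟩ := H924.structure_exists (Zc hα) hZ
  rcases hcase with hab | ⟨⟨a, ha, b, hb, hab⟩, L, hZL, hLN, hLZ, hnorm, hnab, hmax, -, hdesc⟩
  · obtain ⟨n, hn, hnZ⟩ := SetLike.not_le_iff_exists.1 hNZ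
    obtain ⟨H, hH, h⟩ := H924.nonlin_normal hα N ⟨n, hn, hnZ⟩ hab hc
    exact ⟨H, hH, h.trans (by nlinarith)⟩
  rcases H378.or_half hα hc N L hLN hnorm hnab with ⟨H, hH, h⟩ | ⟨x0, hx0, hx0'⟩
  · exact ⟨H, hH, h.trans (by nlinarith)⟩
  set Z0 := N ⊓ Zc hα with hZ0
  have hZ0n : ∀ x ∈ N, ∀ z ∈ Z0, x * z * x⁻¹ ∈ Z0 := by
    intro x hx z hz
    exact ⟨hN.conj_mem z hz.1 x, (Zc_normal hα).conj_mem z hz.2 x⟩
  have hnor : (Z0.subgroupOf L).Normal := by
    refine ⟨fun z hz x => ?_⟩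
    exact hZ0n x (hLN x.2) z hz
  have hLZ0 : ¬ L ≤ Z0 := fun h => hLZ (h.trans inf_le_right)
  have hsimple := simple_quot Z0 L hLZ0 hZL hmax
  -- the subnormal subgroup
  have hsub : L.IsSubnormal := by
    apply Subgroup.IsSubnormal.step L N hLN
    · apply Subgroup.IsSubnormal.step N ⊤ le_top Subgroup.IsSubnormal.top
      exact ⟨fun z hz x => hN.conj_mem z hz x⟩
    · exact ⟨fun z hz x => hnorm x x.2 z hz⟩
  have hnc : ∃ a b : L ⧸ Z0.subgroupOf L, a * b ≠ b * a := by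
    obtain ⟨x, hx, y, hy, hxy⟩ := hnab
    refine ⟨((⟨x, hx⟩ : L) : L ⧸ Z0.subgroupOf L), ((⟨y, hy⟩ : L) : L ⧸ Z0.subgroupOf L), ?_⟩
    intro h
    apply hxy
    have h1 : (((⟨x, hx⟩ : L) * ⟨y, hy⟩ * (⟨x, hx⟩ : L)⁻¹ * (⟨y, hy⟩ : L)⁻¹ : L) :
        L ⧸ Z0.subgroupOf L) = 1 := by
      rw [QuotientGroup.mk_mul, QuotientGroup.mk_mul, QuotientGroup.mk_mul, h,
        QuotientGroup.mk_inv, QuotientGroup.mk_inv]
      group
    rw [QuotientGroup.eq_one_iff] at h1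
    exact h1.2
  rcases hd L hsub (Z0.subgroupOf L) hsimple hnc with ⟨n, hn5, ⟨eL⟩⟩ | hdL
  · -- an alternating factor
    set φ : L →* alternatingGroup (Fin n) :=
      eL.toMonoidHom.comp (QuotientGroup.mk' (Z0.subgroupOf L)) with hφdef
    have hφ : Function.Surjective φ :=
      eL.surjective.comp (QuotientGroup.mk'_surjective (Z0.subgroupOf L))
    have hker : ∀ x : L, φ x = 1 → ‖α x‖ = 1 := by
      intro x hx
      have h1 : eL (x : L ⧸ Z0.subgroupOf L) = 1 := hx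
      rw [map_eq_one_iff _ eL.injective, QuotientGroup.eq_one_iff] at h1
      exact h1.2
    obtain ⟨H, hH, h⟩ := alt_cut hα hφ hker hn5 ⟨x0, hx0, hx0'⟩ (fun g => by
      by_cases hg : ∀ x ∈ L, g * x * g⁻¹ ∈ L
      · exact Or.inl hg
      · right
        intro a ha b hb
        exact comm_le hα (N := N) (Z0 := Z0) (L := L) (fun z hz => hz.2)
          (fun g z hz => ⟨hN.conj_mem z hz.1 g, (Zc_normal hα).conj_mem z hz.2 g⟩)
          hZL hLN hnorm hmax hg ha hb) hc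
    refine ⟨H, hH, h.trans ?_⟩
    have h1 := mul_le_mul_of_nonneg_left hle hCA0
    nlinarith
  -- the function on the quotient
  obtain ⟨f, hf⟩ : ∃ f : L ⧸ Z0.subgroupOf L → ℝ, ∀ x : L, f x = sd α x := by
    refine ⟨fun t => sd α ((Quotient.out t : L) : G), fun x => ?_⟩
    obtain ⟨z, hz⟩ := QuotientGroup.mk_out_eq_mul (Z0.subgroupOf L) x
    have hz1 : ((z : L) : G) ∈ Z0 := z.2
    have hz2 : ‖α ((z : L) : G)‖ = 1 := hz1.2
    change sd α ((Quotient.out (x : L ⧸ Z0.subgroupOf L) : L) : G) = _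
    rw [hz, Subgroup.coe_mul, sd_mul_of_one hα hz2]
  have hf1 : f 1 = 0 := by
    have := hf 1
    rw [QuotientGroup.mk_one, Subgroup.coe_one, sd_one hα] at this
    exact this
  have hfm : ∀ x y, f (x * y) ≤ f x + f y := by
    intro x y
    obtain ⟨x, rfl⟩ := QuotientGroup.mk_surjective x
    obtain ⟨y, rfl⟩ := QuotientGroup.mk_surjective y
    rw [← QuotientGroup.mk_mul, hf, hf, hf, Subgroup.coe_mul]
    exact sd_mul hα _ _
  have hfi : ∀ x, f x⁻¹ = f x := by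
    intro x
    obtain ⟨x, rfl⟩ := QuotientGroup.mk_surjective x
    rw [← QuotientGroup.mk_inv, hf, hf, Subgroup.coe_inv, sd_inv hα]
  have hfc : ∀ x y, f (x * y * x⁻¹) = f y := by
    intro x y
    obtain ⟨x, rfl⟩ := QuotientGroup.mk_surjective x
    obtain ⟨y, rfl⟩ := QuotientGroup.mk_surjective y
    rw [← QuotientGroup.mk_inv, ← QuotientGroup.mk_mul, ← QuotientGroup.mk_mul, hf, hf,
      Subgroup.coe_mul, Subgroup.coe_mul, Subgroup.coe_inv, sd_conj hα]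
  refine ⟨CM N (Zc hα), ?_, ?_⟩
  · intro htop
    apply hab
    have : a ∈ CM N (Zc hα) := by rw [htop]; trivial
    exact this b hb
  -- the pointwise bound
  have hpt : ∀ g, g ∉ CM N (Zc hα) → 1 ≤ 64 * (d : ℝ) ^ 2 * (1 - ‖α g‖) := by
    intro g hg
    rw [mem_CM] at hg
    push Not at hg
    obtain ⟨n, hn, hgn⟩ := hg
    have hmN : g * n * g⁻¹ * n⁻¹ ∈ N := N.mul_mem (hN.conj_mem n hn g) (N.inv_mem hn)
    obtain ⟨h, y, hy, heL, heZ⟩ := hdesc _ hmN hgn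
    set m := g * n * g⁻¹ * n⁻¹ with hm
    set e := (h * m * h⁻¹) * y * (h * m * h⁻¹)⁻¹ * y⁻¹ with he
    have h1 : sd α m ≤ 2 * sd α g := sd_comm hα g n
    have h2 : sd α e ≤ 2 * sd α m := by
      have := sd_comm hα (h * m * h⁻¹) y
      rwa [sd_conj hα] at this
    have hne : ((⟨e, heL⟩ : L) : L ⧸ Z0.subgroupOf L) ≠ 1 := by
      intro h3
      rw [QuotientGroup.eq_one_iff] at h3
      exact heZ h3.2
    obtain ⟨w, hw1, hw2, hw3⟩ := hdL
      ((⟨e, heL⟩ : L) : L ⧸ Z0.subgroupOf L) ((⟨x0, hx0⟩ : L) : L ⧸ Z0.subgroupOf L) hne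
    have h4 := le_of_list hf1 hfm hfi hfc w hw2
    rw [hw3, hf, hf] at h4
    have h5 : sd α x0 ≤ d * sd α e :=
      h4.trans (mul_le_mul_of_nonneg_right (Nat.cast_le.2 hw1) (sd_nonneg α _))
    have h6 : sd α x0 ≤ 4 * d * sd α g := by
      have hd1 : (0 : ℝ) ≤ d := Nat.cast_nonneg d
      calc sd α x0 ≤ d * sd α e := h5
        _ ≤ d * (4 * sd α g) := mul_le_mul_of_nonneg_left (by linarith) hd1
        _ = 4 * d * sd α g := by ring
    have h7 : sd α x0 ^ 2 ≤ (4 * d * sd α g) ^ 2 :=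
      pow_le_pow_left₀ (sd_nonneg α _) h6 2
    rw [mul_pow, sd_sq hα, sd_sq hα] at h7
    have h8 : 1 - ‖α g‖ ^ 2 ≤ 2 * (1 - ‖α g‖) := by
      nlinarith [hα.norm_le g, norm_nonneg (α g), sq_nonneg (1 - ‖α g‖)]
    have h9 : (4 * (d : ℝ)) ^ 2 * (1 - ‖α g‖ ^ 2) ≤ (4 * (d : ℝ)) ^ 2 * (2 * (1 - ‖α g‖)) :=
      mul_le_mul_of_nonneg_left h8 (by positivity)
    nlinarith
  calc ∑ g with g ∉ CM N (Zc hα), c g
      ≤ ∑ g with g ∉ CM N (Zc hα), c g * (64 * (d : ℝ) ^ 2 * (1 - ‖α g‖)) := by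
        apply sum_le_sum
        intro g hg
        have := mul_le_mul_of_nonneg_left (hpt g (mem_filter.1 hg).2) (hc g)
        linarith
    _ ≤ ∑ g, c g * (64 * (d : ℝ) ^ 2 * (1 - ‖α g‖)) := by
        apply sum_le_sum_of_subset_of_nonneg (filter_subset _ _)
        intro g _ _
        exact mul_nonneg (hc g) (mul_nonneg hd0 (by linarith [hα.norm_le g]))
    _ = 64 * (d : ℝ) ^ 2 * ∑ g, c g * (1 - ‖α g‖) := by
        rw [mul_sum]
        apply sum_congr rfl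
        intro g _
        ring
    _ ≤ (4 + 64 * (d : ℝ) ^ 2 + 64 * CA ^ 2) * ∑ g, c g * (1 - (α g).re) := by
        have := mul_le_mul_of_nonneg_left hle hd0
        nlinarith

end Vale.Agent.P318.R2.H221
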