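import Vale.Agent.P318.R2.H221.AltB
import Vale.Agent.P318.R2.H356.CaseI
import Vale.Agent.P318.R2.H378.Mean
import Vale.Agent.P318.R2.H678.GapStep

/-!
# Nonlinear characters: composition factors which are alternating or have a character ratio gap
-/

open Finset

set_option linter.unusedSectionVars false

namespace Vale.Agent.P318.R2.H221

open Vale.Agent.P318.R2.H356

open Classical in
/-- The subgroup of a nonlinear character: nonabelian composition factors which are alternating or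
have a character ratio gap. -/
theorem nonlin4 {G : Type*} [Group G] [Fintype G] {κ : ℝ} (hκ : 0 < κ)
    (hd : ∀ L : Subgroup G, L.IsSubnormal → ∀ (R : Subgroup L) [R.Normal],
      IsSimpleGroup (L ⧸ R) → (∃ a b : L ⧸ R, a * b ≠ b * a) →
      (∃ n, 5 ≤ n ∧ Nonempty ((L ⧸ R) ≃* alternatingGroup (Fin n))) ∨
        H678.Gap (L ⧸ R) κ)
    {α : G → ℂ} (hα : IsChr α) (hnl : ∃ g, ‖α g‖ ≠ 1) {c : G → ℝ} (hc : ∀ g, 0 ≤ c g) :
    ∃ H : Subgroup G, H ≠ ⊤ ∧
      ∑ g with g ∉ H, c g ≤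
        (649638148 + 64 / κ) * ∑ g, c g * (1 - (α g).re) := by
  have hZ : Zc hα ≠ ⊤ := by
    intro h
    obtain ⟨g, hg⟩ := hnl
    apply hg
    have : g ∈ Zc hα := by rw [h]; trivial
    exact this
  have hre : ∀ g, (α g).re ≤ ‖α g‖ := fun g => Complex.re_le_norm _
  have hle : ∑ g, c g * (1 - ‖α g‖) ≤ ∑ g, c g * (1 - (α g).re) :=
    sum_le_sum fun g _ => mul_le_mul_of_nonneg_left (by linarith [hre g]) (hc g)
  have hpos0 : 0 ≤ ∑ g, c g * (1 - ‖α g‖) :=
    sum_nonneg fun g _ => mul_nonneg (hc g) (by linarith [hα.norm_le g])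
  have hpos : 0 ≤ ∑ g, c g * (1 - (α g).re) := hpos0.trans hle
  have hd0 : (0 : ℝ) ≤ 64 / κ := by positivity
  obtain ⟨N, hN, hNZ, hcase⟩ := H924.structure_exists (Zc hα) hZ
  rcases hcase with hab | ⟨⟨a, ha, b, hb, hab⟩, L, hZL, hLN, hLZ, hnorm, hnab, hmax, -, hdesc⟩
  · obtain ⟨n, hn, hnZ⟩ := SetLike.not_le_iff_exists.1 hNZ
    obtain ⟨H, hH, h⟩ := H924.nonlin_normal hα N ⟨n, hn, hnZ⟩ hab hc
    exact ⟨H, hH, h.trans (by nlinarith)⟩
  rcases H378.or_half' hα hc N L hLN hnorm hnab with ⟨H, hH, h⟩ | hmean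
  · exact ⟨H, hH, h.trans (by nlinarith)⟩
  set Z0 := N ⊓ Zc hα with hZ0
  have hZ0n : ∀ x ∈ N, ∀ z ∈ Z0, x * z * x⁻¹ ∈ Z0 := by
    intro x hx z hz
    exact ⟨hN.conj_mem z hz.1 x, (Zc_normal hα).conj_mem z hz.2 x⟩
  have hnor : (Z0.subgroupOf L).Normal := by
    refine ⟨fun z hz x => ?_⟩
    exact hZ0n x (hLN x.2) z hz
  have hLZ0 : ¬ L ≤ Z0 := fun h => hLZ (h.trans inf_le_right)
  have hsimple := simple_quot Z0 L hLZ0 hZL hmax
  -- the subnormal subgroup
  have hsub : L.IsSubnormal := by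
    apply Subgroup.IsSubnormal.step L N hLN
    · apply Subgroup.IsSubnormal.step N ⊤ le_top Subgroup.IsSubnormal.top
      exact ⟨fun z hz x => hN.conj_mem z hz x⟩
    · exact ⟨fun z hz x => hnorm x x.2 z hz⟩
  have hnc : ∃ a b : L ⧸ Z0.subgroupOf L, a * b ≠ b * a := by
    obtain ⟨x, hx, y, hy, hxy⟩ := hnab
    refine ⟨((⟨x, hx⟩ : L) : L ⧸ Z0.subgroupOf L), ((⟨y, hy⟩ : L) : L ⧸ Z0.subgroupOf L), ?_⟩
    intro h
    apply hxy
    have h1 : (((⟨x, hx⟩ : L) * ⟨y, hy⟩ * (⟨x, hx⟩ : L)⁻¹ * (⟨y, hy⟩ : L)⁻¹ : L) :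
        L ⧸ Z0.subgroupOf L) = 1 := by
      rw [QuotientGroup.mk_mul, QuotientGroup.mk_mul, QuotientGroup.mk_mul, h,
        QuotientGroup.mk_inv, QuotientGroup.mk_inv]
      group
    rw [QuotientGroup.eq_one_iff] at h1
    exact h1.2
  rcases hd L hsub (Z0.subgroupOf L) hsimple hnc with ⟨n, hn5, ⟨eL⟩⟩ | hdL
  · -- an alternating factor
    set φ : L →* alternatingGroup (Fin n) :=
      eL.toMonoidHom.comp (QuotientGroup.mk' (Z0.subgroupOf L)) with hφdef
    have hφ : Function.Surjective φ :=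
      eL.surjective.comp (QuotientGroup.mk'_surjective (Z0.subgroupOf L))
    have hker : ∀ x : L, φ x = 1 → ‖α x‖ = 1 := by
      intro x hx
      have h1 : eL (x : L ⧸ Z0.subgroupOf L) = 1 := hx
      rw [map_eq_one_iff _ eL.injective, QuotientGroup.eq_one_iff] at h1
      exact h1.2
    obtain ⟨x0, hx0, hx0'⟩ : ∃ y ∈ L, ‖α y‖ ^ 2 ≤ 1 / 2 := by
      by_contra hcon
      push Not at hcon
      have h1 : ∑ n with n ∈ L, (1 / 2 : ℝ) < ∑ n with n ∈ L, ‖α n‖ ^ 2 :=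
        sum_lt_sum_of_nonempty ⟨1, mem_filter.2 ⟨mem_univ _, L.one_mem⟩⟩
          fun n hn => hcon n (mem_filter.1 hn).2
      rw [sum_const, nsmul_eq_mul] at h1
      have h2 : ((univ.filter fun n => n ∈ L).card : ℝ) = (H378.cd L : ℝ) := rfl
      rw [h2] at h1
      linarith
    obtain ⟨H, hH, h⟩ := alt_cutB hα hφ hker hn5 ⟨x0, hx0, hx0'⟩ (fun g => by
      by_cases hg : ∀ x ∈ L, g * x * g⁻¹ ∈ L
      · exact Or.inl hg
      · right
        intro a ha b hb
        exact comm_le hα (N := N) (Z0 := Z0) (L := L) (fun z hz => hz.2)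
          (fun g z hz => ⟨hN.conj_mem z hz.1 g, (Zc_normal hα).conj_mem z hz.2 g⟩)
          hZL hLN hnorm hmax hg ha hb) hc
    refine ⟨H, hH, h.trans ?_⟩
    rw [CB_val]
    nlinarith
  -- the gap
  have hgap := H678.gap_step hα L Z0 (fun z hz => hz.2) hκ.le hdL hmean
  refine ⟨CM N (Zc hα), ?_, ?_⟩
  · intro htop
    apply hab
    have : a ∈ CM N (Zc hα) := by rw [htop]; trivial
    exact this b hb
  -- the pointwise bound
  have hpt : ∀ g, g ∉ CM N (Zc hα) → 1 ≤ 64 / κ * (1 - ‖α g‖) := by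
    intro g hg
    rw [mem_CM] at hg
    push Not at hg
    obtain ⟨n, hn, hgn⟩ := hg
    have hmN : g * n * g⁻¹ * n⁻¹ ∈ N := N.mul_mem (hN.conj_mem n hn g) (N.inv_mem hn)
    obtain ⟨h, y, hy, heL, heZ⟩ := hdesc _ hmN hgn
    set m := g * n * g⁻¹ * n⁻¹ with hm
    set e := (h * m * h⁻¹) * y * (h * m * h⁻¹)⁻¹ * y⁻¹ with he
    have h1 : sd α m ≤ 2 * sd α g := sd_comm hα g n
    have h2 : sd α e ≤ 2 * sd α m := by
      have := sd_comm hα (h * m * h⁻¹) y
      rwa [sd_conj hα] at this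
    have h3 := hgap e heL (fun h => heZ h.2)
    rw [← sd_sq hα] at h3
    have h4 : sd α e ≤ 4 * sd α g := by linarith
    have h5 : sd α e ^ 2 ≤ (4 * sd α g) ^ 2 := pow_le_pow_left₀ (sd_nonneg α _) h4 2
    have h6 := sd_sq_le hα g
    rw [div_mul_eq_mul_div, le_div_iff₀ hκ]
    nlinarith
  calc ∑ g with g ∉ CM N (Zc hα), c g
      ≤ ∑ g with g ∉ CM N (Zc hα), c g * (64 / κ * (1 - ‖α g‖)) := by
        apply sum_le_sum
        intro g hg
        have := mul_le_mul_of_nonneg_left (hpt g (mem_filter.1 hg).2) (hc g)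
        linarith
    _ ≤ ∑ g, c g * (64 / κ * (1 - ‖α g‖)) := by
        apply sum_le_sum_of_subset_of_nonneg (filter_subset _ _)
        intro g _ _
        exact mul_nonneg (hc g) (mul_nonneg hd0 (by linarith [hα.norm_le g]))
    _ = 64 / κ * ∑ g, c g * (1 - ‖α g‖) := by
        rw [mul_sum]
        apply sum_congr rfl
        intro g _
        ring
    _ ≤ (649638148 + 64 / κ) * ∑ g, c g * (1 - (α g).re) := by
        have := mul_le_mul_of_nonneg_left hle hd0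
        nlinarith

end Vale.Agent.P318.R2.H221
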