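import Mathlib

/-!
# Siegel transformations of a quadratic form
-/

namespace Vale.Agent.P318.R2.H221.Om

variable {F V : Type*} [Field F] [AddCommGroup V] [Module F V]

/-- the polar form -/
abbrev B (Q : QuadraticForm F V) (x y : V) : F := QuadraticMap.polar Q x y

section
variable (Q : QuadraticForm F V)

lemma B_comm (x y : V) : B Q x y = B Q y x := QuadraticMap.polar_comm Q x y
lemma B_add_left (x y z : V) : B Q (x + y) z = B Q x z + B Q y z :=
  QuadraticMap.polar_add_left Q x y z
lemma B_add_right (x y z : V) : B Q x (y + z) = B Q x y + B Q x z :=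
  QuadraticMap.polar_add_right Q x y z
lemma B_smul_left (a : F) (x y : V) : B Q (a • x) y = a * B Q x y :=
  QuadraticMap.polar_smul_left Q a x y
lemma B_smul_right (a : F) (x y : V) : B Q x (a • y) = a * B Q x y :=
  QuadraticMap.polar_smul_right Q a x y
lemma B_sub_left (x y z : V) : B Q (x - y) z = B Q x z - B Q y z :=
  QuadraticMap.polar_sub_left Q x y z
lemma B_sub_right (x y z : V) : B Q x (y - z) = B Q x y - B Q x z :=
  QuadraticMap.polar_sub_right Q x y z
lemma B_neg_left (x y : V) : B Q (-x) y = - B Q x y := QuadraticMap.polar_neg_left Q x y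
lemma B_neg_right (x y : V) : B Q x (-y) = - B Q x y := QuadraticMap.polar_neg_right Q x y
lemma Q_add (x y : V) : Q (x + y) = Q x + Q y + B Q x y := QuadraticMap.map_add Q x y
lemma Q_smul (a : F) (x : V) : Q (a • x) = a * a * Q x := QuadraticMap.map_smul Q a x
lemma Q_neg (x : V) : Q (-x) = Q x := QuadraticMap.map_neg Q x
lemma B_self (x : V) : B Q x x = 2 * Q x := by
  have h : B Q x x = 2 • Q x := QuadraticMap.polar_self Q x
  rw [h, two_smul]; ring

/-- The linear map `x ↦ x + B(x,w) u - B(x,u) w - Q(w) B(x,u) u`. -/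
def rl (u w : V) : V →ₗ[F] V where
  toFun x := x + B Q x w • u - B Q x u • w - (Q w * B Q x u) • u
  map_add' x y := by
    rw [B_add_left, B_add_left]
    module
  map_smul' a x := by
    rw [B_smul_left, B_smul_left, RingHom.id_apply]
    module

lemma rl_apply (u w x : V) :
    rl Q u w x = x + B Q x w • u - B Q x u • w - (Q w * B Q x u) • u := rfl

variable {Q}

lemma rl_rl {u w w' : V} (hu : Q u = 0) (hw : B Q w u = 0) (hw' : B Q w' u = 0) (x : V) :
    rl Q u w (rl Q u w' x) = rl Q u (w + w') x := by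
  have huu : B Q u u = 0 := by rw [B_self, hu, mul_zero]
  have huw : B Q u w = 0 := by rw [B_comm, hw]
  rw [rl_apply Q u w', rl_apply Q u (w + w'), rl_apply Q u w]
  simp only [B_add_left, B_sub_left, B_smul_left, B_add_right, Q_add, huu, hw, hw', huw,
    B_comm Q w' w]
  module

lemma rl_zero (u x : V) : rl Q u 0 x = x := by
  rw [rl_apply]
  simp [QuadraticMap.polar_zero_right]

lemma Q_rl {u w : V} (hu : Q u = 0) (hw : B Q w u = 0) (x : V) : Q (rl Q u w x) = Q x := by
  have huu : B Q u u = 0 := by rw [B_self, hu, mul_zero]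
  have huw : B Q u w = 0 := by rw [B_comm, hw]
  have e : rl Q u w x = x + ((B Q x w - Q w * B Q x u) • u + (- B Q x u) • w) := by
    rw [rl_apply]; module
  rw [e, Q_add, Q_add, Q_smul, Q_smul, hu, B_add_right, B_smul_right, B_smul_right,
    B_smul_left, B_smul_right, huw]
  ring

/-- the Siegel transformation -/
def rho (u w : V) (hu : Q u = 0) (hw : B Q w u = 0) : V ≃ₗ[F] V :=
  LinearEquiv.ofLinearMap (rl Q u w) (rl Q u (-w))
    (by
      ext x
      rw [LinearMap.comp_apply, rl_rl hu hw (by rw [B_neg_left, hw, neg_zero]), add_neg_cancel,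
        rl_zero]
      rfl)
    (by
      ext x
      rw [LinearMap.comp_apply, rl_rl hu (by rw [B_neg_left, hw, neg_zero]) hw, neg_add_cancel,
        rl_zero]
      rfl)

lemma rho_apply {u w : V} (hu : Q u = 0) (hw : B Q w u = 0) (x : V) :
    rho u w hu hw x = x + B Q x w • u - B Q x u • w - (Q w * B Q x u) • u := rfl

lemma rho_mul {u w w' : V} (hu : Q u = 0) (hw : B Q w u = 0) (hw' : B Q w' u = 0) :
    rho u w hu hw * rho u w' hu hw' =
      rho u (w + w') hu (by rw [B_add_left, hw, hw', add_zero]) := by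
  apply LinearEquiv.ext
  intro x
  exact rl_rl hu hw hw' x

lemma rho_inv {u w : V} (hu : Q u = 0) (hw : B Q w u = 0) :
    (rho u w hu hw)⁻¹ = rho u (-w) hu (by rw [B_neg_left, hw, neg_zero]) := by
  rw [inv_eq_iff_mul_eq_one, rho_mul]
  apply LinearEquiv.ext
  intro x
  rw [rho_apply, add_neg_cancel]
  change _ = x
  simp [QuadraticMap.polar_zero_right]

end

/-- the orthogonal group -/
def Or (Q : QuadraticForm F V) : Subgroup (V ≃ₗ[F] V) where
  carrier := {g | ∀ x, Q (g x) = Q x}
  one_mem' := fun _ => rfl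
  mul_mem' := by
    intro g h hg hh x
    change Q (g (h x)) = Q x
    rw [hg, hh]
  inv_mem' := by
    intro g hg x
    change Q (g.symm x) = Q x
    rw [← hg, g.apply_symm_apply]

variable {Q : QuadraticForm F V}

lemma B_map {g : V ≃ₗ[F] V} (hg : g ∈ Or Q) (x y : V) : B Q (g x) (g y) = B Q x y := by
  have h : ∀ z, Q (g z) = Q z := hg
  unfold B QuadraticMap.polar
  rw [← map_add, h, h, h]

lemma rho_mem {u w : V} (hu : Q u = 0) (hw : B Q w u = 0) : rho u w hu hw ∈ Or Q :=
  fun x => Q_rl hu hw x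

lemma conj_rho {g : V ≃ₗ[F] V} (hg : g ∈ Or Q) {u w : V} (hu : Q u = 0) (hw : B Q w u = 0) :
    g * rho u w hu hw * g⁻¹ = rho (g u) (g w) (by rw [hg u, hu]) (by rw [B_map hg, hw]) := by
  apply LinearEquiv.ext
  intro x
  obtain ⟨y, rfl⟩ := g.surjective x
  change g (rho u w hu hw (g.symm (g y))) = _
  rw [g.symm_apply_apply, rho_apply, rho_apply, B_map hg, B_map hg, hg w]
  simp only [map_add, map_sub, map_smul]

end Vale.Agent.P318.R2.H221.Om
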