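import Vale.Agent.P318.R2.H221.Om1

/-!
# Singular vectors in prescribed position
-/

open Module

namespace Vale.Agent.P318.R2.H221.Om

variable {F V : Type*} [Field F] [AddCommGroup V] [Module F V] {Q : QuadraticForm F V}

section CW

open MvPolynomial

/-- the ternary quadratic polynomial -/
noncomputable def tq (a b c d e g : F) : MvPolynomial (Fin 3) F :=
  C a * X 0 * X 0 + C b * X 1 * X 1 + C c * X 2 * X 2 + C d * X 0 * X 1 + C e * X 0 * X 2 +
    C g * X 1 * X 2

lemma deg_mon (r : F) (i j : Fin 3) : (C r * X i * X j : MvPolynomial (Fin 3) F).totalDegree ≤ 2 := by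
  refine (totalDegree_mul _ _).trans ?_
  have h1 := totalDegree_mul (C r) (X i : MvPolynomial (Fin 3) F)
  rw [totalDegree_C, totalDegree_X, zero_add] at h1
  rw [totalDegree_X]
  omega

lemma deg_tq (a b c d e g : F) : (tq a b c d e g).totalDegree ≤ 2 := by
  unfold tq
  refine (totalDegree_add _ _).trans (max_le ?_ (deg_mon _ _ _))
  refine (totalDegree_add _ _).trans (max_le ?_ (deg_mon _ _ _))
  refine (totalDegree_add _ _).trans (max_le ?_ (deg_mon _ _ _))
  refine (totalDegree_add _ _).trans (max_le ?_ (deg_mon _ _ _))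
  exact (totalDegree_add _ _).trans (max_le (deg_mon _ _ _) (deg_mon _ _ _))

lemma exists_zero [Finite F] (a b c d e g : F) :
    ∃ x : Fin 3 → F, x ≠ 0 ∧ eval x (tq a b c d e g) = 0 := by
  classical
  have : Fintype F := Fintype.ofFinite F
  obtain ⟨p, hp⟩ := CharP.exists F
  have hprime : Fact p.Prime := ⟨CharP.char_is_prime F p⟩
  have h := char_dvd_card_solutions (K := F) (σ := Fin 3) p (f := tq a b c d e g)
    (by rw [Fintype.card_fin]; exact (deg_tq a b c d e g).trans_lt (by norm_num))
  by_contra hcon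
  push Not at hcon
  have h0 : eval (0 : Fin 3 → F) (tq a b c d e g) = 0 := by
    simp [tq]
  have h1 : Fintype.card {x : Fin 3 → F // eval x (tq a b c d e g) = 0} = 1 := by
    rw [Fintype.card_eq_one_iff]
    refine ⟨⟨0, h0⟩, ?_⟩
    rintro ⟨x, hx⟩
    apply Subtype.ext
    by_contra hx0
    exact hcon x hx0 hx
  rw [h1] at h
  exact hprime.out.one_lt.ne' (Nat.dvd_one.1 h)

end CW

lemma Q_three (x : Fin 3 → F) (a b c : V) :
    Q (x 0 • a + x 1 • b + x 2 • c) =
      MvPolynomial.eval x (tq (Q a) (Q b) (Q c) (B Q a b) (B Q a c) (B Q b c)) := by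
  simp only [Q_add, Q_smul, B_add_left, B_smul_left, B_smul_right, tq, map_add, map_mul,
    MvPolynomial.eval_C, MvPolynomial.eval_X]
  ring

/-- a ternary subspace contains a singular vector -/
lemma exists_sing [Finite F] {v : Fin 3 → V} (hv : LinearIndependent F v) :
    ∃ x : Fin 3 → F, ∑ i, x i • v i ≠ 0 ∧ Q (∑ i, x i • v i) = 0 := by
  obtain ⟨x, hx0, hx⟩ := exists_zero (Q (v 0)) (Q (v 1)) (Q (v 2)) (B Q (v 0) (v 1))
    (B Q (v 0) (v 2)) (B Q (v 1) (v 2))
  refine ⟨x, ?_, ?_⟩
  · intro h
    apply hx0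
    funext i
    exact (Fintype.linearIndependent_iff.1 hv) x h i
  · rw [Fin.sum_univ_three, Q_three, hx]

variable [FiniteDimensional F V]

/-- the orthogonal complement -/
def orth (Q : QuadraticForm F V) (S : Submodule F V) : Submodule F V :=
  S.dualAnnihilator.comap (QuadraticMap.polarBilin Q)

lemma mem_orth {S : Submodule F V} {x : V} : x ∈ orth Q S ↔ ∀ s ∈ S, B Q s x = 0 := by
  unfold orth
  rw [Submodule.mem_comap, Submodule.mem_dualAnnihilator]
  constructor
  · intro h s hs
    rw [B_comm]
    exact h s hs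
  · intro h s hs
    have := h s hs
    rw [B_comm] at this
    exact this

section nd

variable (hB : ∀ x, (∀ y, B Q x y = 0) → x = 0)
include hB

lemma inj : Function.Injective (QuadraticMap.polarBilin Q) := by
  rw [injective_iff_map_eq_zero]
  intro x hx
  apply hB
  intro y
  exact LinearMap.congr_fun hx y

lemma surj : Function.Surjective (QuadraticMap.polarBilin Q) :=
  (LinearMap.injective_iff_surjective_of_finrank_eq_finrank
    (Subspace.dual_finrank_eq (K := F) (V := V)).symm).1 (inj hB)

/-- separation -/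
lemma sep (S : Submodule F V) {w : V} (hw : w ∉ S) : ∃ y, (∀ s ∈ S, B Q s y = 0) ∧
    B Q w y = 1 := by
  obtain ⟨f, hf1, hf2⟩ := Submodule.exists_dual_map_eq_bot_of_notMem hw inferInstance
  obtain ⟨y, hy⟩ := surj hB f
  have h1 : ∀ x, B Q x y = f x := by
    intro x
    rw [B_comm, ← hy]
    rfl
  refine ⟨(f w)⁻¹ • y, fun s hs => ?_, ?_⟩
  · rw [B_smul_right, h1]
    have h2 : f s ∈ S.map f := Submodule.mem_map_of_mem hs
    rw [hf2] at h2
    rw [(Submodule.mem_bot F).1 h2, mul_zero]
  · rw [B_smul_right, h1, inv_mul_cancel₀ hf1]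

lemma finrank_orth (S : Submodule F V) : finrank F S + finrank F (orth Q S) = finrank F V := by
  have e : V ≃ₗ[F] Dual F V := LinearEquiv.ofBijective _ ⟨inj hB, surj hB⟩
  have h1 : finrank F (orth Q S) = finrank F S.dualAnnihilator := by
    have h2 : (orth Q S).map (QuadraticMap.polarBilin Q) = S.dualAnnihilator := by
      unfold orth
      rw [Submodule.map_comap_eq_of_surjective (surj hB)]
    rw [← h2]
    exact (Submodule.equivMapOfInjective _ (inj hB) _).finrank_eq
  rw [h1]
  exact Subspace.finrank_add_finrank_dualAnnihilator_eq S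

/-- **Singular vectors in prescribed position.** -/
theorem exists_iso [Finite F] (S R : Submodule F V)
    (h : finrank F S + finrank F R + 3 ≤ finrank F V) :
    ∃ z, Q z = 0 ∧ (∀ s ∈ S, B Q s z = 0) ∧ z ∉ R := by
  set K := orth Q S with hK
  have hKd : finrank F S + finrank F K = finrank F V := finrank_orth hB S
  set R' : Submodule F K := R.comap K.subtype with hR'
  obtain ⟨C, hC⟩ := Submodule.exists_isCompl R'
  have h1 : finrank F R' ≤ finrank F R := by
    have : finrank F R' = finrank F (R'.map K.subtype) :=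
      (Submodule.equivMapOfInjective _ K.injective_subtype _).finrank_eq
    rw [this]
    apply Submodule.finrank_mono
    rw [hR']
    exact Submodule.map_comap_le _ _
  have h2 := Submodule.finrank_add_eq_of_isCompl hC
  have h3 : 3 ≤ finrank F C := by omega
  set b := Module.finBasis F C with hb
  set v : Fin 3 → V := fun i => ((b (Fin.castLE h3 i) : C) : K) with hv
  have hvi : LinearIndependent F v := by
    have h4 : LinearIndependent F (fun i : Fin 3 => b (Fin.castLE h3 i)) :=
      b.linearIndependent.comp _ (Fin.castLE_injective h3)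
    have h5 := h4.map' (K.subtype.comp C.subtype) (by
      rw [LinearMap.ker_eq_bot]
      exact K.injective_subtype.comp C.injective_subtype)
    exact h5
  obtain ⟨x, hx0, hx⟩ := exists_sing (Q := Q) hvi
  set zC : C := ∑ i, x i • b (Fin.castLE h3 i) with hzC
  have hz : ((zC : K) : V) = ∑ i, x i • v i := by
    rw [hzC]
    simp only [hv, Submodule.coe_sum, Submodule.coe_smul]
  refine ⟨∑ i, x i • v i, hx, ?_, ?_⟩
  · rw [← hz]
    exact mem_orth.1 (zC : K).2
  · intro hR
    rw [← hz] at hR
    have h6 : (zC : K) ∈ R' := hR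
    have h7 : (zC : K) ∈ R' ⊓ C := ⟨h6, zC.2⟩
    rw [hC.inf_eq_bot, Submodule.mem_bot] at h7
    apply hx0
    rw [← hz, h7]
    rfl

end nd

end Vale.Agent.P318.R2.H221.Om
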