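import Vale.Agent.P318.R2.H221.Om2
import Vale.Agent.P318.R2.H924.Om.Stmts

/-! # Piece 1 of the orthogonal groups -/

open Module

namespace Vale.Agent.P318.R2.H221.Om

theorem p2 (K V : Type*) [Field K] [AddCommGroup V] [Module K V] : H924.Om.StP2 K V := by
  intro Q hK hV hnd h7 u v _ _ _
  have hB : ∀ x, (∀ y, B Q x y = 0) → x = 0 := fun x hx => hnd x fun y => hx y
  classical
  have h2 : finrank K (Submodule.span K {u, v} : Submodule K V) ≤ 2 := by
    have h := finrank_span_finset_le_card (R := K) ({u, v} : Finset V)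
    rw [Finset.coe_insert, Finset.coe_singleton] at h
    exact h.trans Finset.card_le_two
  obtain ⟨z, hz, hzs, hzn⟩ := exists_iso hB (Submodule.span K {u, v}) (Submodule.span K {u, v})
    (by omega)
  exact ⟨z, hz, hzs u (Submodule.subset_span (by simp)), hzs v (Submodule.subset_span (by simp)),
    hzn⟩

end Vale.Agent.P318.R2.H221.Om
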