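import Vale.Agent.P318.R2.H402.TwoDef

/-!
# Products of few conjugates in `PSL(2, F)`

If `a ^ 4 ≠ 1` for some `a ≠ 0` in the field `F`, then every unipotent triangular matrix is a
product of at most four conjugates of `g` and `g⁻¹`, for every noncentral `g` in `SL(2, F)`.
-/

open Matrix
open scoped MatrixGroups

namespace Vale.Agent.P318.R2.H221

open Vale.Agent.P318.R2.H402

variable {F : Type*} [Field F]

/-- lower unipotent -/
def lo (x : F) : SL(2, F) := ⟨!![1, 0; x, 1], by simp [Matrix.det_fin_two_of]⟩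

/-- upper unipotent -/
def up (x : F) : SL(2, F) := ⟨!![1, x; 0, 1], by simp [Matrix.det_fin_two_of]⟩

/-- diagonal -/
def dg (a : F) (ha : a ≠ 0) : SL(2, F) :=
  ⟨!![a, 0; 0, a⁻¹], by simp [Matrix.det_fin_two_of, ha]⟩

/-- the Weyl element -/
def wy : SL(2, F) := ⟨!![0, 1; -1, 0], by simp [Matrix.det_fin_two_of]⟩

lemma lo_coe (x : F) : (lo x : Matrix (Fin 2) (Fin 2) F) = !![1, 0; x, 1] := rfl

lemma up_coe (x : F) : (up x : Matrix (Fin 2) (Fin 2) F) = !![1, x; 0, 1] := rfl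

lemma dg_coe (a : F) (ha : a ≠ 0) :
    (dg a ha : Matrix (Fin 2) (Fin 2) F) = !![a, 0; 0, a⁻¹] := rfl

lemma wy_coe : ((wy : SL(2, F)) : Matrix (Fin 2) (Fin 2) F) = !![0, 1; -1, 0] := rfl

lemma ent (g : SL(2, F)) : (g : Matrix (Fin 2) (Fin 2) F) =
    !![(g : Matrix (Fin 2) (Fin 2) F) 0 0, (g : Matrix (Fin 2) (Fin 2) F) 0 1;
      (g : Matrix (Fin 2) (Fin 2) F) 1 0, (g : Matrix (Fin 2) (Fin 2) F) 1 1] :=
  Matrix.eta_fin_two _

lemma det_ent (g : SL(2, F)) : (g : Matrix (Fin 2) (Fin 2) F) 0 0 *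
    (g : Matrix (Fin 2) (Fin 2) F) 1 1 - (g : Matrix (Fin 2) (Fin 2) F) 0 1 *
      (g : Matrix (Fin 2) (Fin 2) F) 1 0 = 1 := by
  have h := g.2
  rwa [Matrix.det_fin_two] at h

/-- a matrix with nonzero lower left entry -/
lemma conj_normal {g : SL(2, F)} (hr : (g : Matrix (Fin 2) (Fin 2) F) 1 0 ≠ 0) :
    ∃ (c g₁ : SL(2, F)) (b s : F), b ≠ 0 ∧ g₁ = c * g * c⁻¹ ∧
      (g₁ : Matrix (Fin 2) (Fin 2) F) = !![0, -b⁻¹; b, s] := by
  set p := (g : Matrix (Fin 2) (Fin 2) F) 0 0 with hp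
  set q := (g : Matrix (Fin 2) (Fin 2) F) 0 1 with hq
  set r := (g : Matrix (Fin 2) (Fin 2) F) 1 0 with hr'
  set t := (g : Matrix (Fin 2) (Fin 2) F) 1 1 with ht
  have hg : (g : Matrix (Fin 2) (Fin 2) F) = !![p, q; r, t] := ent g
  have hd : p * t - q * r = 1 := det_ent g
  refine ⟨up (-p / r), _, r, p + t, hr, rfl, ?_⟩
  rw [Matrix.SpecialLinearGroup.coe_mul, Matrix.SpecialLinearGroup.coe_mul,
    Matrix.SpecialLinearGroup.coe_inv, hg]
  simp only [up_coe, Matrix.adjugate_fin_two_of, Matrix.mul_fin_two]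
  have e1 : q = (p * t - 1) / r := by
    rw [eq_div_iff hr]
    linear_combination -hd
  ext i j
  fin_cases i <;> fin_cases j <;> simp
  · field_simp
    ring
  · rw [e1]
    field_simp
    ring
  · field_simp

/-- the first commutator -/
lemma comm_tri {g₁ : SL(2, F)} {b s a : F} (hb : b ≠ 0) (ha : a ≠ 0)
    (hg : (g₁ : Matrix (Fin 2) (Fin 2) F) = !![0, -b⁻¹; b, s]) :
    ((g₁ * (dg a ha * g₁⁻¹ * (dg a ha)⁻¹) : SL(2, F)) : Matrix (Fin 2) (Fin 2) F) =
      !![(a ^ 2)⁻¹, 0; s * b * (1 - (a ^ 2)⁻¹), a ^ 2] := by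
  simp only [Matrix.SpecialLinearGroup.coe_mul, Matrix.SpecialLinearGroup.coe_inv, hg,
    dg_coe, Matrix.adjugate_fin_two_of, Matrix.mul_fin_two]
  ext i j
  fin_cases i <;> fin_cases j <;> simp
  · field_simp
  · field_simp
    ring
  · field_simp

/-- the second commutator -/
lemma comm_lo {h : SL(2, F)} {e d z : F} (hd : d ≠ 0)
    (hh : (h : Matrix (Fin 2) (Fin 2) F) = !![d⁻¹, 0; e, d]) :
    h * (lo z * h⁻¹ * (lo z)⁻¹) = lo (z * (d ^ 2 - 1)) := by
  apply Subtype.ext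
  change ((h * (lo z * h⁻¹ * (lo z)⁻¹) : SL(2, F)) : Matrix (Fin 2) (Fin 2) F) = _
  simp only [Matrix.SpecialLinearGroup.coe_mul, Matrix.SpecialLinearGroup.coe_inv, hh,
    lo_coe, Matrix.adjugate_fin_two_of, Matrix.mul_fin_two]
  ext i j
  fin_cases i <;> fin_cases j <;> simp
  · field_simp
  · field_simp
    ring
  · field_simp

lemma wy_lo (y : F) : wy * lo y * wy⁻¹ = up (-y) := by
  apply Subtype.ext
  change ((wy * lo y * wy⁻¹ : SL(2, F)) : Matrix (Fin 2) (Fin 2) F) = _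
  simp only [Matrix.SpecialLinearGroup.coe_mul, Matrix.SpecialLinearGroup.coe_inv, wy_coe,
    lo_coe, up_coe, Matrix.adjugate_fin_two_of, Matrix.mul_fin_two]
  ext i j
  fin_cases i <;> fin_cases j <;> simp

/-- a noncentral element has a conjugate with nonzero lower left entry -/
lemma exists_conj_ne {g : SL(2, F)} (hg : g ∉ Subgroup.center (SL(2, F))) :
    ∃ c : SL(2, F), ((c * g * c⁻¹ : SL(2, F)) : Matrix (Fin 2) (Fin 2) F) 1 0 ≠ 0 := by
  set p := (g : Matrix (Fin 2) (Fin 2) F) 0 0 with hp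
  set q := (g : Matrix (Fin 2) (Fin 2) F) 0 1 with hq
  set r := (g : Matrix (Fin 2) (Fin 2) F) 1 0 with hr'
  set t := (g : Matrix (Fin 2) (Fin 2) F) 1 1 with ht
  have hgm : (g : Matrix (Fin 2) (Fin 2) F) = !![p, q; r, t] := ent g
  by_cases h1 : r = 0
  · by_cases h2 : q = 0
    · refine ⟨lo 1, ?_⟩
      have h3 : p ≠ t := by
        intro h4
        apply hg
        rw [Matrix.SpecialLinearGroup.mem_center_iff]
        have hd : p * t - q * r = 1 := det_ent g
        refine ⟨p, ?_, ?_⟩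
        · rw [Fintype.card_fin]
          rw [h1, h2, ← h4] at hd
          linear_combination hd
        · rw [hgm, h1, h2, ← h4]
          ext i j
          fin_cases i <;> fin_cases j <;> simp
      rw [Matrix.SpecialLinearGroup.coe_mul, Matrix.SpecialLinearGroup.coe_mul,
        Matrix.SpecialLinearGroup.coe_inv, hgm, h1, h2]
      simp only [lo_coe, Matrix.adjugate_fin_two_of, Matrix.mul_fin_two]
      simp
      intro h5
      apply h3
      linear_combination h5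
    · refine ⟨wy, ?_⟩
      rw [Matrix.SpecialLinearGroup.coe_mul, Matrix.SpecialLinearGroup.coe_mul,
        Matrix.SpecialLinearGroup.coe_inv, hgm, h1]
      simp only [wy_coe, Matrix.adjugate_fin_two_of, Matrix.mul_fin_two]
      simpa using h2
  · refine ⟨1, ?_⟩
    rw [one_mul, inv_one, mul_one]
    exact h1

/-- **The word lemma in `SL(2, F)`**, lower unipotents. -/
theorem pr_lo {a : F} (ha : a ≠ 0) (ha4 : a ^ 4 ≠ 1) {g : SL(2, F)}
    (hg : g ∉ Subgroup.center (SL(2, F))) (x : F) : Pr 4 g (lo x) := by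
  obtain ⟨c, hc⟩ := exists_conj_ne hg
  obtain ⟨c', g₁, b, s, hb, hg₁, hm⟩ := conj_normal hc
  have h1 : Pr 1 g g₁ := by
    rw [hg₁]
    exact ((Pr.self g).conj c).conj c'
  have h2 := h1.comm (dg a ha)
  have h3 := comm_tri hb ha hm
  have h4 := h2.comm (lo (x / (a ^ 4 - 1)))
  rw [comm_lo (pow_ne_zero 2 ha) h3] at h4
  have h5 : a ^ 4 - 1 ≠ 0 := sub_ne_zero.2 ha4
  have h6 : x / (a ^ 4 - 1) * ((a ^ 2) ^ 2 - 1) = x := by
    field_simp
  rw [h6] at h4
  exact h4

/-- **The word lemma in `SL(2, F)`**, upper unipotents. -/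
theorem pr_up {a : F} (ha : a ≠ 0) (ha4 : a ^ 4 ≠ 1) {g : SL(2, F)}
    (hg : g ∉ Subgroup.center (SL(2, F))) (x : F) : Pr 4 g (up x) := by
  have h := (pr_lo ha ha4 hg (-x)).conj wy
  rwa [wy_lo, neg_neg] at h

/-- the lower unipotent subgroup -/
def Lo (F : Type*) [Field F] : Subgroup (SL(2, F)) where
  carrier := Set.range lo
  one_mem' := ⟨0, by
    apply Subtype.ext
    change (lo (0 : F) : Matrix (Fin 2) (Fin 2) F) = _
    ext i j
    fin_cases i <;> fin_cases j <;> simp [lo]⟩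
  mul_mem' := by
    rintro _ _ ⟨x, rfl⟩ ⟨y, rfl⟩
    refine ⟨x + y, ?_⟩
    apply Subtype.ext
    change (lo (x + y) : Matrix (Fin 2) (Fin 2) F) =
      ((lo x * lo y : SL(2, F)) : Matrix (Fin 2) (Fin 2) F)
    rw [Matrix.SpecialLinearGroup.coe_mul]
    ext i j
    fin_cases i <;> fin_cases j <;> simp [lo]
  inv_mem' := by
    rintro _ ⟨x, rfl⟩
    refine ⟨-x, ?_⟩
    apply Subtype.ext
    change (lo (-x) : Matrix (Fin 2) (Fin 2) F) =
      (((lo x)⁻¹ : SL(2, F)) : Matrix (Fin 2) (Fin 2) F)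
    rw [Matrix.SpecialLinearGroup.coe_inv]
    ext i j
    fin_cases i <;> fin_cases j <;> simp [lo]

/-- the upper unipotent subgroup -/
def Up (F : Type*) [Field F] : Subgroup (SL(2, F)) where
  carrier := Set.range up
  one_mem' := ⟨0, by
    apply Subtype.ext
    change (up (0 : F) : Matrix (Fin 2) (Fin 2) F) = _
    ext i j
    fin_cases i <;> fin_cases j <;> simp [up]⟩
  mul_mem' := by
    rintro _ _ ⟨x, rfl⟩ ⟨y, rfl⟩
    refine ⟨y + x, ?_⟩
    apply Subtype.ext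
    change (up (y + x) : Matrix (Fin 2) (Fin 2) F) =
      ((up x * up y : SL(2, F)) : Matrix (Fin 2) (Fin 2) F)
    rw [Matrix.SpecialLinearGroup.coe_mul]
    ext i j
    fin_cases i <;> fin_cases j <;> simp [up]
  inv_mem' := by
    rintro _ ⟨x, rfl⟩
    refine ⟨-x, ?_⟩
    apply Subtype.ext
    change (up (-x) : Matrix (Fin 2) (Fin 2) F) =
      (((up x)⁻¹ : SL(2, F)) : Matrix (Fin 2) (Fin 2) F)
    rw [Matrix.SpecialLinearGroup.coe_inv]
    ext i j
    fin_cases i <;> fin_cases j <;> simp [up]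

lemma Lo_sup_Up : Lo F ⊔ Up F = ⊤ := by
  rw [Subgroup.eq_top_iff']
  intro M
  refine SL2.transvection_induction (fun M => M ∈ Lo F ⊔ Up F) (fun i j hij x => ?_)
    (fun _ _ => mul_mem) M
  fin_cases i <;> fin_cases j
  · exact absurd rfl hij
  · apply Subgroup.mem_sup_right
    refine ⟨x, ?_⟩
    apply Subtype.ext
    ext k l
    fin_cases k <;> fin_cases l <;> simp [up, Matrix.SpecialLinearGroup.transvection,
      Matrix.transvection, Matrix.single]
  · apply Subgroup.mem_sup_left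
    refine ⟨x, ?_⟩
    apply Subtype.ext
    ext k l
    fin_cases k <;> fin_cases l <;> simp [lo, Matrix.SpecialLinearGroup.transvection,
      Matrix.transvection, Matrix.single]
  · exact absurd rfl hij

/-- **`PSL(2, F)`.** -/
theorem two_psl2 {a : F} (ha : a ≠ 0) (ha4 : a ^ 4 ≠ 1) :
    Two (Matrix.ProjectiveSpecialLinearGroup (Fin 2) F) 4 := by
  set π : SL(2, F) →* Matrix.ProjectiveSpecialLinearGroup (Fin 2) F :=
    QuotientGroup.mk' (Subgroup.center (SL(2, F))) with hπ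
  refine ⟨(Lo F).map π, (Up F).map π, ?_, ?_⟩
  · rw [← Subgroup.map_sup, Lo_sup_Up]
    exact Subgroup.map_top_of_surjective _ (QuotientGroup.mk'_surjective _)
  · intro x hx y hy
    obtain ⟨g, rfl⟩ := QuotientGroup.mk'_surjective (Subgroup.center (SL(2, F))) x
    have hg : g ∉ Subgroup.center (SL(2, F)) := by
      intro h
      apply hx
      exact (QuotientGroup.eq_one_iff g).2 h
    rcases hy with hy | hy
    · obtain ⟨_, ⟨z, rfl⟩, rfl⟩ := Subgroup.mem_map.1 hy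
      exact (pr_lo ha ha4 hg z).map π
    · obtain ⟨_, ⟨z, rfl⟩, rfl⟩ := Subgroup.mem_map.1 hy
      exact (pr_up ha ha4 hg z).map π

end Vale.Agent.P318.R2.H221
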