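import Vale.Agent.P318.R2.H221.Psl2
import Vale.Agent.P318.R2.H924.Crude
import Vale.Agent.P318.R2.H924.GapTwo

/-! # The gap of `PSL(2, F)` for all finite fields -/

namespace Vale.Agent.P318.R2.H221

open Vale.Agent.P318.R2.H678 (Gap)

lemma exists_pow_four {F : Type*} [Field F] [Finite F] (h : 6 ≤ Nat.card F) :
    ∃ a : F, a ≠ 0 ∧ a ^ 4 ≠ 1 := by
  classical
  have : Fintype F := Fintype.ofFinite F
  by_contra hcon
  push Not at hcon
  have h1 : (Finset.univ.filter fun a : Fˣ => a ^ 4 = 1).card ≤ 4 :=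
    IsCyclic.card_pow_eq_one_le (by norm_num)
  have h2 : (Finset.univ.filter fun a : Fˣ => a ^ 4 = 1) = Finset.univ := by
    ext a
    simp only [Finset.mem_filter, Finset.mem_univ, true_and, iff_true]
    apply Units.ext
    rw [Units.val_pow_eq_pow_val, Units.val_one]
    exact hcon a a.ne_zero
  rw [h2, Finset.card_univ, Fintype.card_units] at h1
  rw [Nat.card_eq_fintype_card] at h
  omega

/-- **`PSL(2, F)`**, `F` any finite field such that the group is simple. -/
theorem gap_psl2 (F : Type*) [Field F] [Finite F]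
    [IsSimpleGroup (Matrix.ProjectiveSpecialLinearGroup (Fin 2) F)] :
    Gap (Matrix.ProjectiveSpecialLinearGroup (Fin 2) F) (1 / (625 : ℝ) ^ 2) := by
  rcases lt_or_ge (Nat.card F) 6 with h | h
  · exact H924.gap_psl_two_small (by omega)
  · obtain ⟨a, ha, ha4⟩ := exists_pow_four h
    have h2 := H924.gap_of_two (m := 4) (by norm_num) (two_psl2 ha ha4)
    refine H924.Gap.mono h2 ?_
    norm_num

end Vale.Agent.P318.R2.H221
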