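import Vale.Agent.P318.R2.H402.TwoDef
import Vale.Agent.P318.R2.H356.Exc

/-!
# Groups with a split BN-pair of rank one

In a finite simple group with such a pair every element of the unipotent subgroup `U` is a product
of at most four conjugates of `x` and `x⁻¹`, for every `x ≠ 1`.
-/

namespace Vale.Agent.P318.R2.H221

open Vale.Agent.P318.R2.H402 Vale.Agent.P318.R2.H356

/-- **Rank one.** -/
theorem two_rank_one {T : Type} [Group T] [Finite T] [IsSimpleGroup T] (h : RankOne T) :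
    Two T 4 := by
  obtain ⟨U, H, n, hHU, hHH, hnH, hB, hn, hgen, k, hk, hC⟩ := h
  refine ⟨U, U.map (MulAut.conj n).toMonoidHom, hgen, ?_⟩
  intro x hx
  -- the subgroup `U H`
  let B : Subgroup T :=
    { carrier := {y | ∃ u ∈ U, ∃ h ∈ H, y = u * h}
      one_mem' := ⟨1, U.one_mem, 1, H.one_mem, by simp⟩
      mul_mem' := by
        rintro _ _ ⟨u, hu, h, hh, rfl⟩ ⟨v, hv, l, hl, rfl⟩
        exact ⟨u * (h * v * h⁻¹), U.mul_mem hu (hHU h hh v hv), h * l, H.mul_mem hh hl,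
          by group⟩
      inv_mem' := by
        rintro _ ⟨u, hu, h, hh, rfl⟩
        refine ⟨h⁻¹ * u⁻¹ * h⁻¹⁻¹, hHU h⁻¹ (H.inv_mem hh) u⁻¹ (U.inv_mem hu), h⁻¹,
          H.inv_mem hh, by group⟩ }
  have hnB : n ∉ B := by
    rintro ⟨u, hu, h, hh, e⟩
    exact hn u hu h hh e
  -- a conjugate outside `U H`
  obtain ⟨c, hc⟩ : ∃ c : T, c * x * c⁻¹ ∉ B := by
    by_contra hcon
    push Not at hcon
    have h1 : Subgroup.normalClosure ({x} : Set T) ≤ B := by
      rw [Subgroup.normalClosure, Subgroup.closure_le]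
      intro y hy
      obtain ⟨z, hz, hzy⟩ := Group.mem_conjugatesOfSet_iff.1 hy
      rw [Set.mem_singleton_iff] at hz
      subst hz
      obtain ⟨c, rfl⟩ := isConj_iff.1 hzy
      exact hcon c
    have h2 : Subgroup.normalClosure ({x} : Set T) = ⊤ := by
      rcases Subgroup.Normal.eq_bot_or_eq_top
        (Subgroup.normalClosure_normal (s := ({x} : Set T))) with h | h
      · exfalso
        apply hx
        have h3 : x ∈ Subgroup.normalClosure ({x} : Set T) :=
          Subgroup.subset_normalClosure rfl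
        rw [h] at h3
        exact Subgroup.mem_bot.1 h3
      · exact h
    rw [h2] at h1
    exact hnB (h1 (Subgroup.mem_top n))
  -- a conjugate `n h w`
  obtain ⟨h, hh, w, hw, hy⟩ : ∃ h ∈ H, ∃ w ∈ U, Pr 1 x (n * h * w) := by
    rcases hB (c * x * c⁻¹) with h | ⟨u, hu, h, hh, v, hv, e⟩
    · exact absurd h hc
    · refine ⟨h, hh, v * u, U.mul_mem hv hu, ?_⟩
      have h1 := ((Pr.self x).conj c).conj u⁻¹
      rw [e] at h1
      have h2 : u⁻¹ * (u * n * h * v) * u⁻¹⁻¹ = n * h * (v * u) := by group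
      rwa [h2] at h1
  set t : T := n⁻¹ * k * n * k⁻¹ with ht
  have hkH : n⁻¹ * k * n ∈ H := hnH k hk
  have htH : t ∈ H := H.mul_mem hkH (H.inv_mem hk)
  -- twisted conjugation is onto
  have hsur : ∀ z ∈ U, ∃ u ∈ U, z * t = u⁻¹ * t * u := by
    intro z hz
    let f : U → U := fun u => ⟨(u : T)⁻¹ * (t * (u : T) * t⁻¹),
      U.mul_mem (U.inv_mem u.2) (hHU t htH u u.2)⟩
    have hf : Function.Injective f := by
      intro u v huv
      have h1 : (u : T)⁻¹ * (t * (u : T) * t⁻¹) = (v : T)⁻¹ * (t * (v : T) * t⁻¹) :=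
        congrArg Subtype.val huv
      have h2 : t * ((u : T) * (v : T)⁻¹) = ((u : T) * (v : T)⁻¹) * t := by
        calc t * ((u : T) * (v : T)⁻¹)
            = (u : T) * ((u : T)⁻¹ * (t * (u : T) * t⁻¹)) * t * (v : T)⁻¹ := by group
          _ = (u : T) * ((v : T)⁻¹ * (t * (v : T) * t⁻¹)) * t * (v : T)⁻¹ := by rw [h1]
          _ = ((u : T) * (v : T)⁻¹) * t := by group
      have h3 := hC _ (U.mul_mem u.2 (U.inv_mem v.2)) h2
      exact Subtype.ext (mul_inv_eq_one.1 h3)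
    obtain ⟨u, hu⟩ := Finite.surjective_of_injective hf ⟨z, hz⟩
    have h1 : (u : T)⁻¹ * (t * (u : T) * t⁻¹) = z := congrArg Subtype.val hu
    exact ⟨u, u.2, by rw [← h1]; group⟩
  -- `t` is a product of two conjugates
  have h2 : Pr 2 x t := by
    have h3 : Pr (1 + 1) x ((n * h * w)⁻¹ * (k * (n * h * w) * k⁻¹)) := hy.inv.mul (hy.conj k)
    have hcm : (n⁻¹ * k * n) * h = h * (n⁻¹ * k * n) := hHH _ hkH _ hh
    have h4 : (n * h * w)⁻¹ * (k * (n * h * w) * k⁻¹) =
        (w⁻¹ * ((n⁻¹ * k * n) * w * (n⁻¹ * k * n)⁻¹)) * t := by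
      calc (n * h * w)⁻¹ * (k * (n * h * w) * k⁻¹)
          = w⁻¹ * h⁻¹ * ((n⁻¹ * k * n) * h) * w * k⁻¹ := by group
        _ = w⁻¹ * h⁻¹ * (h * (n⁻¹ * k * n)) * w * k⁻¹ := by rw [hcm]
        _ = (w⁻¹ * ((n⁻¹ * k * n) * w * (n⁻¹ * k * n)⁻¹)) * t := by
          rw [ht]
          group
    obtain ⟨u, hu, hut⟩ := hsur _ (U.mul_mem (U.inv_mem hw) (hHU _ hkH w hw))
    rw [h4, hut] at h3
    have h5 := h3.conj u
    have h6 : u * (u⁻¹ * t * u) * u⁻¹ = t := by group
    rwa [h6] at h5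
  -- all of `U`
  have h3 : ∀ v ∈ U, Pr 4 x v := by
    intro v hv
    obtain ⟨u, hu, hut⟩ := hsur v hv
    have h4 : Pr 2 x (v * t) := by
      rw [hut]
      have := h2.conj u⁻¹
      rwa [inv_inv] at this
    have h5 : Pr (2 + 2) x (v * t * t⁻¹) := h4.mul h2.inv
    rwa [mul_inv_cancel_right] at h5
  rintro y (hy | hy)
  · exact h3 y hy
  · obtain ⟨v, hv, rfl⟩ := hy
    exact (h3 v hv).conj n

end Vale.Agent.P318.R2.H221
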