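import Vale.Agent.P318.R2.H678.GapDef

/-! # Elementary properties of the gap -/

namespace Vale.Agent.P318.R2.H221

open Vale.Agent.P318.R2.H678

/-- the gap is invariant under isomorphism -/
theorem gap_congr {T T' : Type*} [Group T] [Group T'] (e : T ≃* T') {κ : ℝ} (h : Gap T κ) :
    Gap T' κ := by
  intro d ρ hρ x hx
  have h1 := h d (ρ.comp e.toMonoidHom) (fun v hv => hρ v fun y => by
    have := hv (e.symm y)
    rwa [MonoidHom.comp_apply, MulEquiv.coe_toMonoidHom, e.apply_symm_apply] at this)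
    (e.symm x) (fun h2 => hx (by
      rw [← e.apply_symm_apply x, h2, map_one]))
  rwa [MonoidHom.comp_apply, MulEquiv.coe_toMonoidHom, e.apply_symm_apply] at h1

/-- the gap is monotone -/
theorem gap_mono {T : Type*} [Group T] {κ κ' : ℝ} (hk : κ' ≤ κ) (h : Gap T κ) : Gap T κ' := by
  intro d ρ hρ x hx
  refine (h d ρ hρ x hx).trans ?_
  have hd : (0 : ℝ) ≤ d := Nat.cast_nonneg d
  nlinarith

end Vale.Agent.P318.R2.H221
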